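import Vale.Agent.P236C.DOk
import Vale.Agent.P236C.C.U1_0_0

noncomputable section

namespace Vale.Agent.P236C.D

theorem uok1_0 : UOK DD (ldK k2_0 q2_0 b2_0 ds2 (nat_lit 0) (nat_lit 4)) 1 u1_0 :=
  uok_K hDD 1 (ds0 := ds1) (xs := xs1) rfl rfl rfl rfl pk2_0 wu1_0
    (UC.of_chk cu1_0_0)
    (by decide +kernel)

end Vale.Agent.P236C.D

end
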