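import Vale.Agent.P236C.DOk
import Vale.Agent.P236C.C.U1_1_0
import Vale.Agent.P236C.C.U1_1_1

noncomputable section

namespace Vale.Agent.P236C.D

theorem uok1_1 : UOK DD (ldK k2_1 q2_1 b2_1 ds2 (nat_lit 4) (nat_lit 16)) 1 u1_1 :=
  uok_K hDD 1 (ds0 := ds1) (xs := xs1) rfl rfl rfl rfl pk2_1 wu1_1
    ((UC.of_chk cu1_1_0).append
    (UC.of_chk cu1_1_1))
    (by decide +kernel)

end Vale.Agent.P236C.D

end
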