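import Vale.Agent.P236C.Ev
import Vale.Agent.P236C.D.P
import Vale.Agent.P236C.V.V1_0_0
import Vale.Agent.P236C.G.U1_0
import Vale.Agent.P236C.V.V1_1_0
import Vale.Agent.P236C.G.U1_1

noncomputable section

namespace Vale.Agent.P236C.D

theorem cp1_0 : ∀ c ∈ P236N.Dt.D.allC 1, DD.CP hDD 1 (nat_lit 0) (nat_lit 4) c :=
  cp_K hDD 1 (ds0 := ds1) rfl rfl rfl pk2_0 uok1_0
    (cv1_0_0)

theorem cp1_1 : ∀ c ∈ P236N.Dt.D.allC 1, DD.CP hDD 1 (nat_lit 4) (nat_lit 16) c :=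
  cp_K hDD 1 (ds0 := ds1) rfl rfl rfl pk2_1 uok1_1
    (cv1_1_0)

theorem clm1 : ∀ c ∈ P236N.Dt.D.allC 1, c.Ok (mkRes DD hDD) genF dsA 1 := fun c hc =>
  ((cp1_0 c hc).trans (cp1_1 c hc)).ok (by decide +kernel)

end Vale.Agent.P236C.D

end
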