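import Vale.Agent.P236C.DOk
import Vale.Agent.P236C.C.U10_0_0
import Vale.Agent.P236C.C.U10_0_1
import Vale.Agent.P236C.C.U10_0_2

noncomputable section

namespace Vale.Agent.P236C.D

theorem uok10_0 : UOK DD (ldK k11_0 q11_0 b11_0 ds11 (nat_lit 0) (nat_lit 9)) 10 u10_0 :=
  uok_K hDD 10 (ds0 := ds10) (xs := xs10) rfl rfl rfl rfl pk11_0 wu10_0
    ((UC.of_chk cu10_0_0).append
    ((UC.of_chk cu10_0_1).append
    (UC.of_chk cu10_0_2)))
    (by decide +kernel)

end Vale.Agent.P236C.D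

end
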