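import Vale.Agent.P236C.Ev
import Vale.Agent.P236C.D.P
import Vale.Agent.P236C.V.V10_0_0
import Vale.Agent.P236C.V.V10_0_1
import Vale.Agent.P236C.V.V10_0_2
import Vale.Agent.P236C.V.V10_0_3
import Vale.Agent.P236C.G.U10_0
import Vale.Agent.P236C.V.V10_1_0
import Vale.Agent.P236C.V.V10_1_1
import Vale.Agent.P236C.V.V10_1_2
import Vale.Agent.P236C.V.V10_1_3
import Vale.Agent.P236C.G.U10_1

noncomputable section

namespace Vale.Agent.P236C.D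

theorem cp10_0 : ∀ c ∈ P236N.Dt.D.allC 10, DD.CP hDD 10 (nat_lit 0) (nat_lit 9) c :=
  cp_K hDD 10 (ds0 := ds10) rfl rfl rfl pk11_0 uok10_0
    (evK_cut _ cv10_0_0
    (evK_cut _ cv10_0_1
    (evK_cut _ cv10_0_2
    (cv10_0_3))))

theorem cp10_1 : ∀ c ∈ P236N.Dt.D.allC 10, DD.CP hDD 10 (nat_lit 9) (nat_lit 44) c :=
  cp_K hDD 10 (ds0 := ds10) rfl rfl rfl pk11_1 uok10_1
    (evK_cut _ cv10_1_0
    (evK_cut _ cv10_1_1
    (evK_cut _ cv10_1_2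
    (cv10_1_3))))

theorem clm10 : ∀ c ∈ P236N.Dt.D.allC 10, c.Ok (mkRes DD hDD) genF dsA 10 := fun c hc =>
  ((cp10_0 c hc).trans (cp10_1 c hc)).ok (by decide +kernel)

end Vale.Agent.P236C.D

end
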