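import Vale.Agent.P236C.DOk
import Vale.Agent.P236C.C.U11_0_0
import Vale.Agent.P236C.C.U11_0_1
import Vale.Agent.P236C.C.U11_0_2

noncomputable section

namespace Vale.Agent.P236C.D

theorem uok11_0 : UOK DD (ldK k12_0 q12_0 b12_0 ds12 (nat_lit 0) (nat_lit 8)) 11 u11_0 :=
  uok_K hDD 11 (ds0 := ds11) (xs := xs11) rfl rfl rfl rfl pk12_0 wu11_0
    ((UC.of_chk cu11_0_0).append
    ((UC.of_chk cu11_0_1).append
    (UC.of_chk cu11_0_2)))
    (by decide +kernel)

end Vale.Agent.P236C.D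

end
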