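import Vale.Agent.P236C.Ev
import Vale.Agent.P236C.D.P
import Vale.Agent.P236C.V.V11_0_0
import Vale.Agent.P236C.V.V11_0_1
import Vale.Agent.P236C.V.V11_0_2
import Vale.Agent.P236C.V.V11_0_3
import Vale.Agent.P236C.G.U11_0
import Vale.Agent.P236C.V.V11_1_0
import Vale.Agent.P236C.V.V11_1_1
import Vale.Agent.P236C.V.V11_1_2
import Vale.Agent.P236C.V.V11_1_3
import Vale.Agent.P236C.G.U11_1

noncomputable section

namespace Vale.Agent.P236C.D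

theorem cp11_0 : ∀ c ∈ P236N.Dt.D.allC 11, DD.CP hDD 11 (nat_lit 0) (nat_lit 8) c :=
  cp_K hDD 11 (ds0 := ds11) rfl rfl rfl pk12_0 uok11_0
    (evK_cut _ cv11_0_0
    (evK_cut _ cv11_0_1
    (evK_cut _ cv11_0_2
    (cv11_0_3))))

theorem cp11_1 : ∀ c ∈ P236N.Dt.D.allC 11, DD.CP hDD 11 (nat_lit 8) (nat_lit 40) c :=
  cp_K hDD 11 (ds0 := ds11) rfl rfl rfl pk12_1 uok11_1
    (evK_cut _ cv11_1_0
    (evK_cut _ cv11_1_1
    (evK_cut _ cv11_1_2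
    (cv11_1_3))))

theorem clm11 : ∀ c ∈ P236N.Dt.D.allC 11, c.Ok (mkRes DD hDD) genF dsA 11 := fun c hc =>
  ((cp11_0 c hc).trans (cp11_1 c hc)).ok (by decide +kernel)

end Vale.Agent.P236C.D

end
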