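import Vale.Agent.P236C.DOk
import Vale.Agent.P236C.C.U12_0_0
import Vale.Agent.P236C.C.U12_0_1

noncomputable section

namespace Vale.Agent.P236C.D

theorem uok12_0 : UOK DD (ldK k13_0 q13_0 b13_0 ds13 (nat_lit 0) (nat_lit 7)) 12 u12_0 :=
  uok_K hDD 12 (ds0 := ds12) (xs := xs12) rfl rfl rfl rfl pk13_0 wu12_0
    ((UC.of_chk cu12_0_0).append
    (UC.of_chk cu12_0_1))
    (by decide +kernel)

end Vale.Agent.P236C.D

end
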