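import Vale.Agent.P236C.DOk
import Vale.Agent.P236C.C.U12_1_0
import Vale.Agent.P236C.C.U12_1_1

noncomputable section

namespace Vale.Agent.P236C.D

theorem uok12_1 : UOK DD (ldK k13_1 q13_1 b13_1 ds13 (nat_lit 7) (nat_lit 34)) 12 u12_1 :=
  uok_K hDD 12 (ds0 := ds12) (xs := xs12) rfl rfl rfl rfl pk13_1 wu12_1
    ((UC.of_chk cu12_1_0).append
    (UC.of_chk cu12_1_1))
    (by decide +kernel)

end Vale.Agent.P236C.D

end
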