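import Vale.Agent.P236C.Ev
import Vale.Agent.P236C.D.P
import Vale.Agent.P236C.V.V12_0_0
import Vale.Agent.P236C.V.V12_0_1
import Vale.Agent.P236C.V.V12_0_2
import Vale.Agent.P236C.V.V12_0_3
import Vale.Agent.P236C.G.U12_0
import Vale.Agent.P236C.V.V12_1_0
import Vale.Agent.P236C.V.V12_1_1
import Vale.Agent.P236C.V.V12_1_2
import Vale.Agent.P236C.V.V12_1_3
import Vale.Agent.P236C.G.U12_1

noncomputable section

namespace Vale.Agent.P236C.D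

theorem cp12_0 : ∀ c ∈ P236N.Dt.D.allC 12, DD.CP hDD 12 (nat_lit 0) (nat_lit 7) c :=
  cp_K hDD 12 (ds0 := ds12) rfl rfl rfl pk13_0 uok12_0
    (evK_cut _ cv12_0_0
    (evK_cut _ cv12_0_1
    (evK_cut _ cv12_0_2
    (cv12_0_3))))

theorem cp12_1 : ∀ c ∈ P236N.Dt.D.allC 12, DD.CP hDD 12 (nat_lit 7) (nat_lit 34) c :=
  cp_K hDD 12 (ds0 := ds12) rfl rfl rfl pk13_1 uok12_1
    (evK_cut _ cv12_1_0
    (evK_cut _ cv12_1_1
    (evK_cut _ cv12_1_2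
    (cv12_1_3))))

theorem clm12 : ∀ c ∈ P236N.Dt.D.allC 12, c.Ok (mkRes DD hDD) genF dsA 12 := fun c hc =>
  ((cp12_0 c hc).trans (cp12_1 c hc)).ok (by decide +kernel)

end Vale.Agent.P236C.D

end
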