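import Vale.Agent.P236C.DOk
import Vale.Agent.P236C.C.U13_1_0
import Vale.Agent.P236C.C.U13_1_1

noncomputable section

namespace Vale.Agent.P236C.D

theorem uok13_1 : UOK DD (ldK k14_1 q14_1 b14_1 ds14 (nat_lit 7) (nat_lit 32)) 13 u13_1 :=
  uok_K hDD 13 (ds0 := ds13) (xs := xs13) rfl rfl rfl rfl pk14_1 wu13_1
    ((UC.of_chk cu13_1_0).append
    (UC.of_chk cu13_1_1))
    (by decide +kernel)

end Vale.Agent.P236C.D

end
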