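import Vale.Agent.P236C.Ev
import Vale.Agent.P236C.D.P
import Vale.Agent.P236C.V.V13_0_0
import Vale.Agent.P236C.V.V13_0_1
import Vale.Agent.P236C.V.V13_0_2
import Vale.Agent.P236C.V.V13_0_3
import Vale.Agent.P236C.G.U13_0
import Vale.Agent.P236C.V.V13_1_0
import Vale.Agent.P236C.V.V13_1_1
import Vale.Agent.P236C.V.V13_1_2
import Vale.Agent.P236C.V.V13_1_3
import Vale.Agent.P236C.G.U13_1

noncomputable section

namespace Vale.Agent.P236C.D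

theorem cp13_0 : ∀ c ∈ P236N.Dt.D.allC 13, DD.CP hDD 13 (nat_lit 0) (nat_lit 7) c :=
  cp_K hDD 13 (ds0 := ds13) rfl rfl rfl pk14_0 uok13_0
    (evK_cut _ cv13_0_0
    (evK_cut _ cv13_0_1
    (evK_cut _ cv13_0_2
    (cv13_0_3))))

theorem cp13_1 : ∀ c ∈ P236N.Dt.D.allC 13, DD.CP hDD 13 (nat_lit 7) (nat_lit 32) c :=
  cp_K hDD 13 (ds0 := ds13) rfl rfl rfl pk14_1 uok13_1
    (evK_cut _ cv13_1_0
    (evK_cut _ cv13_1_1
    (evK_cut _ cv13_1_2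
    (cv13_1_3))))

theorem clm13 : ∀ c ∈ P236N.Dt.D.allC 13, c.Ok (mkRes DD hDD) genF dsA 13 := fun c hc =>
  ((cp13_0 c hc).trans (cp13_1 c hc)).ok (by decide +kernel)

end Vale.Agent.P236C.D

end
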