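import Vale.Agent.P236C.DOk
import Vale.Agent.P236C.C.U14_0_0
import Vale.Agent.P236C.C.U14_0_1

noncomputable section

namespace Vale.Agent.P236C.D

theorem uok14_0 : UOK DD (ldK k15_0 q15_0 b15_0 ds15 (nat_lit 0) (nat_lit 7)) 14 u14_0 :=
  uok_K hDD 14 (ds0 := ds14) (xs := xs14) rfl rfl rfl rfl pk15_0 wu14_0
    ((UC.of_chk cu14_0_0).append
    (UC.of_chk cu14_0_1))
    (by decide +kernel)

end Vale.Agent.P236C.D

end
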