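import Vale.Agent.P236C.DOk
import Vale.Agent.P236C.C.U14_1_0
import Vale.Agent.P236C.C.U14_1_1

noncomputable section

namespace Vale.Agent.P236C.D

theorem uok14_1 : UOK DD (ldK k15_1 q15_1 b15_1 ds15 (nat_lit 7) (nat_lit 29)) 14 u14_1 :=
  uok_K hDD 14 (ds0 := ds14) (xs := xs14) rfl rfl rfl rfl pk15_1 wu14_1
    ((UC.of_chk cu14_1_0).append
    (UC.of_chk cu14_1_1))
    (by decide +kernel)

end Vale.Agent.P236C.D

end
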