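import Vale.Agent.P236C.DOk
import Vale.Agent.P236C.C.U15_0_0
import Vale.Agent.P236C.C.U15_0_1
import Vale.Agent.P236C.C.U15_0_2

noncomputable section

namespace Vale.Agent.P236C.D

theorem uok15_0 : UOK DD (ldK k16_0 q16_0 b16_0 ds16 (nat_lit 0) (nat_lit 26)) 15 u15_0 :=
  uok_K hDD 15 (ds0 := ds15) (xs := xs15) rfl rfl rfl rfl pk16_0 wu15_0
    ((UC.of_chk cu15_0_0).append
    ((UC.of_chk cu15_0_1).append
    (UC.of_chk cu15_0_2)))
    (by decide +kernel)

end Vale.Agent.P236C.D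

end
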