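import Vale.Agent.P236C.Ev
import Vale.Agent.P236C.D.P
import Vale.Agent.P236C.V.V15_0_0
import Vale.Agent.P236C.V.V15_0_1
import Vale.Agent.P236C.V.V15_0_2
import Vale.Agent.P236C.G.U15_0

noncomputable section

namespace Vale.Agent.P236C.D

theorem cp15_0 : ∀ c ∈ P236N.Dt.D.allC 15, DD.CP hDD 15 (nat_lit 0) (nat_lit 26) c :=
  cp_K hDD 15 (ds0 := ds15) rfl rfl rfl pk16_0 uok15_0
    (evK_cut _ cv15_0_0
    (evK_cut _ cv15_0_1
    (cv15_0_2)))

theorem clm15 : ∀ c ∈ P236N.Dt.D.allC 15, c.Ok (mkRes DD hDD) genF dsA 15 := fun c hc =>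
  (cp15_0 c hc).ok (by decide +kernel)

end Vale.Agent.P236C.D

end
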