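import Vale.Agent.P236C.DOk
import Vale.Agent.P236C.C.U17_0_0
import Vale.Agent.P236C.C.U17_0_1

noncomputable section

namespace Vale.Agent.P236C.D

theorem uok17_0 : UOK DD (ldK k18_0 q18_0 b18_0 ds18 (nat_lit 0) (nat_lit 24)) 17 u17_0 :=
  uok_K hDD 17 (ds0 := ds17) (xs := xs17) rfl rfl rfl rfl pk18_0 wu17_0
    ((UC.of_chk cu17_0_0).append
    (UC.of_chk cu17_0_1))
    (by decide +kernel)

end Vale.Agent.P236C.D

end
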