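import Vale.Agent.P236C.Ev
import Vale.Agent.P236C.D.P
import Vale.Agent.P236C.V.V17_0_0
import Vale.Agent.P236C.V.V17_0_1
import Vale.Agent.P236C.G.U17_0

noncomputable section

namespace Vale.Agent.P236C.D

theorem cp17_0 : ∀ c ∈ P236N.Dt.D.allC 17, DD.CP hDD 17 (nat_lit 0) (nat_lit 24) c :=
  cp_K hDD 17 (ds0 := ds17) rfl rfl rfl pk18_0 uok17_0
    (evK_cut _ cv17_0_0
    (cv17_0_1))

theorem clm17 : ∀ c ∈ P236N.Dt.D.allC 17, c.Ok (mkRes DD hDD) genF dsA 17 := fun c hc =>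
  (cp17_0 c hc).ok (by decide +kernel)

end Vale.Agent.P236C.D

end
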