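import Vale.Agent.P236C.DOk
import Vale.Agent.P236C.C.U18_0_0
import Vale.Agent.P236C.C.U18_0_1

noncomputable section

namespace Vale.Agent.P236C.D

theorem uok18_0 : UOK DD (ldK k19_0 q19_0 b19_0 ds19 (nat_lit 0) (nat_lit 24)) 18 u18_0 :=
  uok_K hDD 18 (ds0 := ds18) (xs := xs18) rfl rfl rfl rfl pk19_0 wu18_0
    ((UC.of_chk cu18_0_0).append
    (UC.of_chk cu18_0_1))
    (by decide +kernel)

end Vale.Agent.P236C.D

end
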