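import Vale.Agent.P236C.DOk
import Vale.Agent.P236C.C.U19_0_0
import Vale.Agent.P236C.C.U19_0_1

noncomputable section

namespace Vale.Agent.P236C.D

theorem uok19_0 : UOK DD (ldK k20_0 q20_0 b20_0 ds20 (nat_lit 0) (nat_lit 24)) 19 u19_0 :=
  uok_K hDD 19 (ds0 := ds19) (xs := xs19) rfl rfl rfl rfl pk20_0 wu19_0
    ((UC.of_chk cu19_0_0).append
    (UC.of_chk cu19_0_1))
    (by decide +kernel)

end Vale.Agent.P236C.D

end
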