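import Vale.Agent.P236C.Ev
import Vale.Agent.P236C.D.P
import Vale.Agent.P236C.V.V2_0_0
import Vale.Agent.P236C.V.V2_0_1
import Vale.Agent.P236C.G.U2_0
import Vale.Agent.P236C.V.V2_1_0
import Vale.Agent.P236C.V.V2_1_1
import Vale.Agent.P236C.G.U2_1

noncomputable section

namespace Vale.Agent.P236C.D

theorem cp2_0 : ∀ c ∈ P236N.Dt.D.allC 2, DD.CP hDD 2 (nat_lit 0) (nat_lit 8) c :=
  cp_K hDD 2 (ds0 := ds2) rfl rfl rfl pk3_0 uok2_0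
    (evK_cut _ cv2_0_0
    (cv2_0_1))

theorem cp2_1 : ∀ c ∈ P236N.Dt.D.allC 2, DD.CP hDD 2 (nat_lit 8) (nat_lit 31) c :=
  cp_K hDD 2 (ds0 := ds2) rfl rfl rfl pk3_1 uok2_1
    (evK_cut _ cv2_1_0
    (cv2_1_1))

theorem clm2 : ∀ c ∈ P236N.Dt.D.allC 2, c.Ok (mkRes DD hDD) genF dsA 2 := fun c hc =>
  ((cp2_0 c hc).trans (cp2_1 c hc)).ok (by decide +kernel)

end Vale.Agent.P236C.D

end
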