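import Vale.Agent.P236C.DOk
import Vale.Agent.P236C.C.U20_0_0
import Vale.Agent.P236C.C.U20_0_1

noncomputable section

namespace Vale.Agent.P236C.D

theorem uok20_0 : UOK DD (ldK k21_0 q21_0 b21_0 ds21 (nat_lit 0) (nat_lit 24)) 20 u20_0 :=
  uok_K hDD 20 (ds0 := ds20) (xs := xs20) rfl rfl rfl rfl pk21_0 wu20_0
    ((UC.of_chk cu20_0_0).append
    (UC.of_chk cu20_0_1))
    (by decide +kernel)

end Vale.Agent.P236C.D

end
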