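import Vale.Agent.P236C.DOk
import Vale.Agent.P236C.C.U21_0_0

noncomputable section

namespace Vale.Agent.P236C.D

theorem uok21_0 : UOK DD (ldK k22_0 q22_0 b22_0 ds22 (nat_lit 0) (nat_lit 24)) 21 u21_0 :=
  uok_K hDD 21 (ds0 := ds21) (xs := xs21) rfl rfl rfl rfl pk22_0 wu21_0
    (UC.of_chk cu21_0_0)
    (by decide +kernel)

end Vale.Agent.P236C.D

end
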