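import Vale.Agent.P236C.DOk
import Vale.Agent.P236C.C.U22_0_0

noncomputable section

namespace Vale.Agent.P236C.D

theorem uok22_0 : UOK DD (ldK k23_0 q23_0 b23_0 ds23 (nat_lit 0) (nat_lit 23)) 22 u22_0 :=
  uok_K hDD 22 (ds0 := ds22) (xs := xs22) rfl rfl rfl rfl pk23_0 wu22_0
    (UC.of_chk cu22_0_0)
    (by decide +kernel)

end Vale.Agent.P236C.D

end
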