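import Vale.Agent.P236C.DOk
import Vale.Agent.P236C.C.U23_0_0

noncomputable section

namespace Vale.Agent.P236C.D

theorem uok23_0 : UOK DD (ldK k24_0 q24_0 b24_0 ds24 (nat_lit 0) (nat_lit 23)) 23 u23_0 :=
  uok_K hDD 23 (ds0 := ds23) (xs := xs23) rfl rfl rfl rfl pk24_0 wu23_0
    (UC.of_chk cu23_0_0)
    (by decide +kernel)

end Vale.Agent.P236C.D

end
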