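import Vale.Agent.P236C.DOk
import Vale.Agent.P236C.C.U24_0_0

noncomputable section

namespace Vale.Agent.P236C.D

theorem uok24_0 : UOK DD (ldK k25_0 q25_0 b25_0 ds25 (nat_lit 0) (nat_lit 22)) 24 u24_0 :=
  uok_K hDD 24 (ds0 := ds24) (xs := xs24) rfl rfl rfl rfl pk25_0 wu24_0
    (UC.of_chk cu24_0_0)
    (by decide +kernel)

end Vale.Agent.P236C.D

end
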