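import Vale.Agent.P236C.DOk
import Vale.Agent.P236C.C.U25_0_0

noncomputable section

namespace Vale.Agent.P236C.D

theorem uok25_0 : UOK DD (ldK k26_0 q26_0 b26_0 ds26 (nat_lit 0) (nat_lit 21)) 25 u25_0 :=
  uok_K hDD 25 (ds0 := ds25) (xs := xs25) rfl rfl rfl rfl pk26_0 wu25_0
    (UC.of_chk cu25_0_0)
    (by decide +kernel)

end Vale.Agent.P236C.D

end
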