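import Vale.Agent.P236C.DOk
import Vale.Agent.P236C.C.U26_0_0

noncomputable section

namespace Vale.Agent.P236C.D

theorem uok26_0 : UOK DD (ldK k27_0 q27_0 b27_0 ds27 (nat_lit 0) (nat_lit 21)) 26 u26_0 :=
  uok_K hDD 26 (ds0 := ds26) (xs := xs26) rfl rfl rfl rfl pk27_0 wu26_0
    (UC.of_chk cu26_0_0)
    (by decide +kernel)

end Vale.Agent.P236C.D

end
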