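import Vale.Agent.P236C.Ev
import Vale.Agent.P236C.D.P
import Vale.Agent.P236C.V.V26_0_0
import Vale.Agent.P236C.G.U26_0

noncomputable section

namespace Vale.Agent.P236C.D

theorem cp26_0 : ∀ c ∈ P236N.Dt.D.allC 26, DD.CP hDD 26 (nat_lit 0) (nat_lit 21) c :=
  cp_K hDD 26 (ds0 := ds26) rfl rfl rfl pk27_0 uok26_0
    (cv26_0_0)

theorem clm26 : ∀ c ∈ P236N.Dt.D.allC 26, c.Ok (mkRes DD hDD) genF dsA 26 := fun c hc =>
  (cp26_0 c hc).ok (by decide +kernel)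

end Vale.Agent.P236C.D

end
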