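import Vale.Agent.P236C.DOk
import Vale.Agent.P236C.C.U27_0_0

noncomputable section

namespace Vale.Agent.P236C.D

theorem uok27_0 : UOK DD (ldK k28_0 q28_0 b28_0 ds28 (nat_lit 0) (nat_lit 20)) 27 u27_0 :=
  uok_K hDD 27 (ds0 := ds27) (xs := xs27) rfl rfl rfl rfl pk28_0 wu27_0
    (UC.of_chk cu27_0_0)
    (by decide +kernel)

end Vale.Agent.P236C.D

end
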