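import Vale.Agent.P236C.DOk
import Vale.Agent.P236C.C.U28_0_0

noncomputable section

namespace Vale.Agent.P236C.D

theorem uok28_0 : UOK DD (ldK k29_0 q29_0 b29_0 ds29 (nat_lit 0) (nat_lit 19)) 28 u28_0 :=
  uok_K hDD 28 (ds0 := ds28) (xs := xs28) rfl rfl rfl rfl pk29_0 wu28_0
    (UC.of_chk cu28_0_0)
    (by decide +kernel)

end Vale.Agent.P236C.D

end
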