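import Vale.Agent.P236C.DOk
import Vale.Agent.P236C.C.U29_0_0

noncomputable section

namespace Vale.Agent.P236C.D

theorem uok29_0 : UOK DD (ldK k30_0 q30_0 b30_0 ds30 (nat_lit 0) (nat_lit 18)) 29 u29_0 :=
  uok_K hDD 29 (ds0 := ds29) (xs := xs29) rfl rfl rfl rfl pk30_0 wu29_0
    (UC.of_chk cu29_0_0)
    (by decide +kernel)

end Vale.Agent.P236C.D

end
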