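import Vale.Agent.P236C.DOk
import Vale.Agent.P236C.C.U3_0_0
import Vale.Agent.P236C.C.U3_0_1
import Vale.Agent.P236C.C.U3_0_2
import Vale.Agent.P236C.C.U3_0_3
import Vale.Agent.P236C.C.U3_0_4
import Vale.Agent.P236C.C.U3_0_5

noncomputable section

namespace Vale.Agent.P236C.D

theorem uok3_0 : UOK DD (ldK k4_0 q4_0 b4_0 ds4 (nat_lit 0) (nat_lit 10)) 3 u3_0 :=
  uok_K hDD 3 (ds0 := ds3) (xs := xs3) rfl rfl rfl rfl pk4_0 wu3_0
    ((UC.of_chk cu3_0_0).append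
    ((UC.of_chk cu3_0_1).append
    ((UC.of_chk cu3_0_2).append
    ((UC.of_chk cu3_0_3).append
    ((UC.of_chk cu3_0_4).append
    (UC.of_chk cu3_0_5))))))
    (by decide +kernel)

end Vale.Agent.P236C.D

end
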