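import Vale.Agent.P236C.DOk
import Vale.Agent.P236C.C.U3_1_0
import Vale.Agent.P236C.C.U3_1_1
import Vale.Agent.P236C.C.U3_1_2
import Vale.Agent.P236C.C.U3_1_3
import Vale.Agent.P236C.C.U3_1_4
import Vale.Agent.P236C.C.U3_1_5

noncomputable section

namespace Vale.Agent.P236C.D

theorem uok3_1 : UOK DD (ldK k4_1 q4_1 b4_1 ds4 (nat_lit 10) (nat_lit 41)) 3 u3_1 :=
  uok_K hDD 3 (ds0 := ds3) (xs := xs3) rfl rfl rfl rfl pk4_1 wu3_1
    ((UC.of_chk cu3_1_0).append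
    ((UC.of_chk cu3_1_1).append
    ((UC.of_chk cu3_1_2).append
    ((UC.of_chk cu3_1_3).append
    ((UC.of_chk cu3_1_4).append
    (UC.of_chk cu3_1_5))))))
    (by decide +kernel)

end Vale.Agent.P236C.D

end
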