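import Vale.Agent.P236C.DOk
import Vale.Agent.P236C.C.U30_0_0

noncomputable section

namespace Vale.Agent.P236C.D

theorem uok30_0 : UOK DD (ldK k31_0 q31_0 b31_0 ds31 (nat_lit 0) (nat_lit 17)) 30 u30_0 :=
  uok_K hDD 30 (ds0 := ds30) (xs := xs30) rfl rfl rfl rfl pk31_0 wu30_0
    (UC.of_chk cu30_0_0)
    (by decide +kernel)

end Vale.Agent.P236C.D

end
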