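import Vale.Agent.P236C.Ev
import Vale.Agent.P236C.D.P
import Vale.Agent.P236C.V.V30_0_0
import Vale.Agent.P236C.G.U30_0

noncomputable section

namespace Vale.Agent.P236C.D

theorem cp30_0 : ∀ c ∈ P236N.Dt.D.allC 30, DD.CP hDD 30 (nat_lit 0) (nat_lit 17) c :=
  cp_K hDD 30 (ds0 := ds30) rfl rfl rfl pk31_0 uok30_0
    (cv30_0_0)

theorem clm30 : ∀ c ∈ P236N.Dt.D.allC 30, c.Ok (mkRes DD hDD) genF dsA 30 := fun c hc =>
  (cp30_0 c hc).ok (by decide +kernel)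

end Vale.Agent.P236C.D

end
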