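import Vale.Agent.P236C.DOk
import Vale.Agent.P236C.C.U31_0_0

noncomputable section

namespace Vale.Agent.P236C.D

theorem uok31_0 : UOK DD (ldK k32_0 q32_0 b32_0 ds32 (nat_lit 0) (nat_lit 15)) 31 u31_0 :=
  uok_K hDD 31 (ds0 := ds31) (xs := xs31) rfl rfl rfl rfl pk32_0 wu31_0
    (UC.of_chk cu31_0_0)
    (by decide +kernel)

end Vale.Agent.P236C.D

end
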