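import Vale.Agent.P236C.DOk
import Vale.Agent.P236C.C.U32_0_0

noncomputable section

namespace Vale.Agent.P236C.D

theorem uok32_0 : UOK DD (ldK k33_0 q33_0 b33_0 ds33 (nat_lit 0) (nat_lit 14)) 32 u32_0 :=
  uok_K hDD 32 (ds0 := ds32) (xs := xs32) rfl rfl rfl rfl pk33_0 wu32_0
    (UC.of_chk cu32_0_0)
    (by decide +kernel)

end Vale.Agent.P236C.D

end
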