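import Vale.Agent.P236C.DOk
import Vale.Agent.P236C.C.U4_1_0
import Vale.Agent.P236C.C.U4_1_1
import Vale.Agent.P236C.C.U4_1_2
import Vale.Agent.P236C.C.U4_1_3
import Vale.Agent.P236C.C.U4_1_4
import Vale.Agent.P236C.C.U4_1_5
import Vale.Agent.P236C.C.U4_1_6

noncomputable section

namespace Vale.Agent.P236C.D

theorem uok4_1 : UOK DD (ldK k5_1 q5_1 b5_1 ds5 (nat_lit 10) (nat_lit 45)) 4 u4_1 :=
  uok_K hDD 4 (ds0 := ds4) (xs := xs4) rfl rfl rfl rfl pk5_1 wu4_1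
    ((UC.of_chk cu4_1_0).append
    ((UC.of_chk cu4_1_1).append
    ((UC.of_chk cu4_1_2).append
    ((UC.of_chk cu4_1_3).append
    ((UC.of_chk cu4_1_4).append
    ((UC.of_chk cu4_1_5).append
    (UC.of_chk cu4_1_6)))))))
    (by decide +kernel)

end Vale.Agent.P236C.D

end
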