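import Vale.Agent.P236C.DOk
import Vale.Agent.P236C.C.U5_0_0
import Vale.Agent.P236C.C.U5_0_1
import Vale.Agent.P236C.C.U5_0_2
import Vale.Agent.P236C.C.U5_0_3
import Vale.Agent.P236C.C.U5_0_4
import Vale.Agent.P236C.C.U5_0_5

noncomputable section

namespace Vale.Agent.P236C.D

theorem uok5_0 : UOK DD (ldK k6_0 q6_0 b6_0 ds6 (nat_lit 0) (nat_lit 10)) 5 u5_0 :=
  uok_K hDD 5 (ds0 := ds5) (xs := xs5) rfl rfl rfl rfl pk6_0 wu5_0
    ((UC.of_chk cu5_0_0).append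
    ((UC.of_chk cu5_0_1).append
    ((UC.of_chk cu5_0_2).append
    ((UC.of_chk cu5_0_3).append
    ((UC.of_chk cu5_0_4).append
    (UC.of_chk cu5_0_5))))))
    (by decide +kernel)

end Vale.Agent.P236C.D

end
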