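import Vale.Agent.P236C.DOk
import Vale.Agent.P236C.C.U5_1_0
import Vale.Agent.P236C.C.U5_1_1
import Vale.Agent.P236C.C.U5_1_2
import Vale.Agent.P236C.C.U5_1_3
import Vale.Agent.P236C.C.U5_1_4

noncomputable section

namespace Vale.Agent.P236C.D

theorem uok5_1 : UOK DD (ldK k6_1 q6_1 b6_1 ds6 (nat_lit 10) (nat_lit 44)) 5 u5_1 :=
  uok_K hDD 5 (ds0 := ds5) (xs := xs5) rfl rfl rfl rfl pk6_1 wu5_1
    ((UC.of_chk cu5_1_0).append
    ((UC.of_chk cu5_1_1).append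
    ((UC.of_chk cu5_1_2).append
    ((UC.of_chk cu5_1_3).append
    (UC.of_chk cu5_1_4)))))
    (by decide +kernel)

end Vale.Agent.P236C.D

end
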