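import Vale.Agent.P236C.Ev
import Vale.Agent.P236C.D.P
import Vale.Agent.P236C.V.V5_0_0
import Vale.Agent.P236C.V.V5_0_1
import Vale.Agent.P236C.V.V5_0_2
import Vale.Agent.P236C.G.U5_0
import Vale.Agent.P236C.V.V5_1_0
import Vale.Agent.P236C.V.V5_1_1
import Vale.Agent.P236C.V.V5_1_2
import Vale.Agent.P236C.G.U5_1

noncomputable section

namespace Vale.Agent.P236C.D

theorem cp5_0 : ∀ c ∈ P236N.Dt.D.allC 5, DD.CP hDD 5 (nat_lit 0) (nat_lit 10) c :=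
  cp_K hDD 5 (ds0 := ds5) rfl rfl rfl pk6_0 uok5_0
    (evK_cut _ cv5_0_0
    (evK_cut _ cv5_0_1
    (cv5_0_2)))

theorem cp5_1 : ∀ c ∈ P236N.Dt.D.allC 5, DD.CP hDD 5 (nat_lit 10) (nat_lit 44) c :=
  cp_K hDD 5 (ds0 := ds5) rfl rfl rfl pk6_1 uok5_1
    (evK_cut _ cv5_1_0
    (evK_cut _ cv5_1_1
    (cv5_1_2)))

theorem clm5 : ∀ c ∈ P236N.Dt.D.allC 5, c.Ok (mkRes DD hDD) genF dsA 5 := fun c hc =>
  ((cp5_0 c hc).trans (cp5_1 c hc)).ok (by decide +kernel)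

end Vale.Agent.P236C.D

end
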