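import Vale.Agent.P236C.DOk
import Vale.Agent.P236C.C.U6_0_0
import Vale.Agent.P236C.C.U6_0_1
import Vale.Agent.P236C.C.U6_0_2
import Vale.Agent.P236C.C.U6_0_3

noncomputable section

namespace Vale.Agent.P236C.D

theorem uok6_0 : UOK DD (ldK k7_0 q7_0 b7_0 ds7 (nat_lit 0) (nat_lit 8)) 6 u6_0 :=
  uok_K hDD 6 (ds0 := ds6) (xs := xs6) rfl rfl rfl rfl pk7_0 wu6_0
    ((UC.of_chk cu6_0_0).append
    ((UC.of_chk cu6_0_1).append
    ((UC.of_chk cu6_0_2).append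
    (UC.of_chk cu6_0_3))))
    (by decide +kernel)

end Vale.Agent.P236C.D

end
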