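import Vale.Agent.P236C.Ev
import Vale.Agent.P236C.D.P
import Vale.Agent.P236C.V.V6_0_0
import Vale.Agent.P236C.V.V6_0_1
import Vale.Agent.P236C.V.V6_0_2
import Vale.Agent.P236C.G.U6_0
import Vale.Agent.P236C.V.V6_1_0
import Vale.Agent.P236C.V.V6_1_1
import Vale.Agent.P236C.V.V6_1_2
import Vale.Agent.P236C.G.U6_1

noncomputable section

namespace Vale.Agent.P236C.D

theorem cp6_0 : ∀ c ∈ P236N.Dt.D.allC 6, DD.CP hDD 6 (nat_lit 0) (nat_lit 8) c :=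
  cp_K hDD 6 (ds0 := ds6) rfl rfl rfl pk7_0 uok6_0
    (evK_cut _ cv6_0_0
    (evK_cut _ cv6_0_1
    (cv6_0_2)))

theorem cp6_1 : ∀ c ∈ P236N.Dt.D.allC 6, DD.CP hDD 6 (nat_lit 8) (nat_lit 41) c :=
  cp_K hDD 6 (ds0 := ds6) rfl rfl rfl pk7_1 uok6_1
    (evK_cut _ cv6_1_0
    (evK_cut _ cv6_1_1
    (cv6_1_2)))

theorem clm6 : ∀ c ∈ P236N.Dt.D.allC 6, c.Ok (mkRes DD hDD) genF dsA 6 := fun c hc =>
  ((cp6_0 c hc).trans (cp6_1 c hc)).ok (by decide +kernel)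

end Vale.Agent.P236C.D

end
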