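import Vale.Agent.P236C.Ev
import Vale.Agent.P236C.D.P
import Vale.Agent.P236C.V.V7_0_0
import Vale.Agent.P236C.V.V7_0_1
import Vale.Agent.P236C.V.V7_0_2
import Vale.Agent.P236C.G.U7_0
import Vale.Agent.P236C.V.V7_1_0
import Vale.Agent.P236C.V.V7_1_1
import Vale.Agent.P236C.V.V7_1_2
import Vale.Agent.P236C.G.U7_1

noncomputable section

namespace Vale.Agent.P236C.D

theorem cp7_0 : ∀ c ∈ P236N.Dt.D.allC 7, DD.CP hDD 7 (nat_lit 0) (nat_lit 8) c :=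
  cp_K hDD 7 (ds0 := ds7) rfl rfl rfl pk8_0 uok7_0
    (evK_cut _ cv7_0_0
    (evK_cut _ cv7_0_1
    (cv7_0_2)))

theorem cp7_1 : ∀ c ∈ P236N.Dt.D.allC 7, DD.CP hDD 7 (nat_lit 8) (nat_lit 40) c :=
  cp_K hDD 7 (ds0 := ds7) rfl rfl rfl pk8_1 uok7_1
    (evK_cut _ cv7_1_0
    (evK_cut _ cv7_1_1
    (cv7_1_2)))

theorem clm7 : ∀ c ∈ P236N.Dt.D.allC 7, c.Ok (mkRes DD hDD) genF dsA 7 := fun c hc =>
  ((cp7_0 c hc).trans (cp7_1 c hc)).ok (by decide +kernel)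

end Vale.Agent.P236C.D

end
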