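import Vale.Agent.P236C.DOk
import Vale.Agent.P236C.C.U8_0_0
import Vale.Agent.P236C.C.U8_0_1
import Vale.Agent.P236C.C.U8_0_2
import Vale.Agent.P236C.C.U8_0_3

noncomputable section

namespace Vale.Agent.P236C.D

theorem uok8_0 : UOK DD (ldK k9_0 q9_0 b9_0 ds9 (nat_lit 0) (nat_lit 9)) 8 u8_0 :=
  uok_K hDD 8 (ds0 := ds8) (xs := xs8) rfl rfl rfl rfl pk9_0 wu8_0
    ((UC.of_chk cu8_0_0).append
    ((UC.of_chk cu8_0_1).append
    ((UC.of_chk cu8_0_2).append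
    (UC.of_chk cu8_0_3))))
    (by decide +kernel)

end Vale.Agent.P236C.D

end
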