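import Vale.Agent.P236C.DOk
import Vale.Agent.P236C.C.U8_1_0
import Vale.Agent.P236C.C.U8_1_1
import Vale.Agent.P236C.C.U8_1_2

noncomputable section

namespace Vale.Agent.P236C.D

theorem uok8_1 : UOK DD (ldK k9_1 q9_1 b9_1 ds9 (nat_lit 9) (nat_lit 43)) 8 u8_1 :=
  uok_K hDD 8 (ds0 := ds8) (xs := xs8) rfl rfl rfl rfl pk9_1 wu8_1
    ((UC.of_chk cu8_1_0).append
    ((UC.of_chk cu8_1_1).append
    (UC.of_chk cu8_1_2)))
    (by decide +kernel)

end Vale.Agent.P236C.D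

end
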