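import Vale.Agent.P236C.Ev
import Vale.Agent.P236C.D.P
import Vale.Agent.P236C.V.V8_0_0
import Vale.Agent.P236C.V.V8_0_1
import Vale.Agent.P236C.V.V8_0_2
import Vale.Agent.P236C.G.U8_0
import Vale.Agent.P236C.V.V8_1_0
import Vale.Agent.P236C.V.V8_1_1
import Vale.Agent.P236C.V.V8_1_2
import Vale.Agent.P236C.G.U8_1

noncomputable section

namespace Vale.Agent.P236C.D

theorem cp8_0 : ∀ c ∈ P236N.Dt.D.allC 8, DD.CP hDD 8 (nat_lit 0) (nat_lit 9) c :=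
  cp_K hDD 8 (ds0 := ds8) rfl rfl rfl pk9_0 uok8_0
    (evK_cut _ cv8_0_0
    (evK_cut _ cv8_0_1
    (cv8_0_2)))

theorem cp8_1 : ∀ c ∈ P236N.Dt.D.allC 8, DD.CP hDD 8 (nat_lit 9) (nat_lit 43) c :=
  cp_K hDD 8 (ds0 := ds8) rfl rfl rfl pk9_1 uok8_1
    (evK_cut _ cv8_1_0
    (evK_cut _ cv8_1_1
    (cv8_1_2)))

theorem clm8 : ∀ c ∈ P236N.Dt.D.allC 8, c.Ok (mkRes DD hDD) genF dsA 8 := fun c hc =>
  ((cp8_0 c hc).trans (cp8_1 c hc)).ok (by decide +kernel)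

end Vale.Agent.P236C.D

end
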