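import Vale.Agent.P236C.DOk
import Vale.Agent.P236C.C.U9_1_0
import Vale.Agent.P236C.C.U9_1_1
import Vale.Agent.P236C.C.U9_1_2

noncomputable section

namespace Vale.Agent.P236C.D

theorem uok9_1 : UOK DD (ldK k10_1 q10_1 b10_1 ds10 (nat_lit 9) (nat_lit 44)) 9 u9_1 :=
  uok_K hDD 9 (ds0 := ds9) (xs := xs9) rfl rfl rfl rfl pk10_1 wu9_1
    ((UC.of_chk cu9_1_0).append
    ((UC.of_chk cu9_1_1).append
    (UC.of_chk cu9_1_2)))
    (by decide +kernel)

end Vale.Agent.P236C.D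

end
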