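import Vale.Agent.P236C.Ev
import Vale.Agent.P236C.D.P
import Vale.Agent.P236C.V.V9_0_0
import Vale.Agent.P236C.V.V9_0_1
import Vale.Agent.P236C.V.V9_0_2
import Vale.Agent.P236C.G.U9_0
import Vale.Agent.P236C.V.V9_1_0
import Vale.Agent.P236C.V.V9_1_1
import Vale.Agent.P236C.V.V9_1_2
import Vale.Agent.P236C.G.U9_1

noncomputable section

namespace Vale.Agent.P236C.D

theorem cp9_0 : ∀ c ∈ P236N.Dt.D.allC 9, DD.CP hDD 9 (nat_lit 0) (nat_lit 9) c :=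
  cp_K hDD 9 (ds0 := ds9) rfl rfl rfl pk10_0 uok9_0
    (evK_cut _ cv9_0_0
    (evK_cut _ cv9_0_1
    (cv9_0_2)))

theorem cp9_1 : ∀ c ∈ P236N.Dt.D.allC 9, DD.CP hDD 9 (nat_lit 9) (nat_lit 44) c :=
  cp_K hDD 9 (ds0 := ds9) rfl rfl rfl pk10_1 uok9_1
    (evK_cut _ cv9_1_0
    (evK_cut _ cv9_1_1
    (cv9_1_2)))

theorem clm9 : ∀ c ∈ P236N.Dt.D.allC 9, c.Ok (mkRes DD hDD) genF dsA 9 := fun c hc =>
  ((cp9_0 c hc).trans (cp9_1 c hc)).ok (by decide +kernel)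

end Vale.Agent.P236C.D

end
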