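import Vale.Agent.P236C.G.V0
import Vale.Agent.P236C.G.V1
import Vale.Agent.P236C.G.V2
import Vale.Agent.P236C.G.V3
import Vale.Agent.P236C.G.V4
import Vale.Agent.P236C.G.V5
import Vale.Agent.P236C.G.V6
import Vale.Agent.P236C.G.V7
import Vale.Agent.P236C.G.V8
import Vale.Agent.P236C.G.V9
import Vale.Agent.P236C.G.V10
import Vale.Agent.P236C.G.V11
import Vale.Agent.P236C.G.V12
import Vale.Agent.P236C.G.V13
import Vale.Agent.P236C.G.V14
import Vale.Agent.P236C.G.V15
import Vale.Agent.P236C.G.V16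
import Vale.Agent.P236C.G.V17
import Vale.Agent.P236C.G.V18
import Vale.Agent.P236C.G.V19
import Vale.Agent.P236C.G.V20
import Vale.Agent.P236C.G.V21
import Vale.Agent.P236C.G.V22
import Vale.Agent.P236C.G.V23
import Vale.Agent.P236C.G.V24
import Vale.Agent.P236C.G.V25
import Vale.Agent.P236C.G.V26
import Vale.Agent.P236C.G.V27
import Vale.Agent.P236C.G.V28
import Vale.Agent.P236C.G.V29
import Vale.Agent.P236C.G.V30
import Vale.Agent.P236C.G.V31
import Vale.Agent.P236C.G.V32

noncomputable section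

namespace Vale.Agent.P236C.D

theorem clm : ∀ s ≤ 32, ∀ c ∈ P236N.Dt.D.allC s, c.Ok (mkRes DD hDD) genF dsA s := by
  intro s hs
  interval_cases s
  exacts [clm0, clm1, clm2, clm3, clm4, clm5, clm6, clm7, clm8, clm9, clm10, clm11, clm12, clm13, clm14, clm15, clm16, clm17, clm18, clm19, clm20, clm21, clm22, clm23, clm24, clm25, clm26, clm27, clm28, clm29, clm30, clm31, clm32]

end Vale.Agent.P236C.D

end
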