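import Vale.Agent.P236C.G.U2_0
import Vale.Agent.P236C.C.Q1_0_0
import Vale.Agent.P236C.C.Q1_0_1
import Vale.Agent.P236C.C.Q1_0_2
import Vale.Agent.P236C.C.Q1_0_3
import Vale.Agent.P236C.C.Q1_0_4
import Vale.Agent.P236C.C.Q1_0_5
import Vale.Agent.P236C.C.Q1_0_6
import Vale.Agent.P236C.C.Q1_0_7
import Vale.Agent.P236C.C.Q1_0_8
import Vale.Agent.P236C.C.Q1_0_9
import Vale.Agent.P236C.G.U2_1
import Vale.Agent.P236C.C.Q1_1_0
import Vale.Agent.P236C.C.Q1_1_1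
import Vale.Agent.P236C.C.Q1_1_2
import Vale.Agent.P236C.C.Q1_1_3
import Vale.Agent.P236C.C.Q1_1_4
import Vale.Agent.P236C.C.Q1_1_5
import Vale.Agent.P236C.C.Q1_1_6
import Vale.Agent.P236C.C.Q1_1_7
import Vale.Agent.P236C.C.Q1_1_8
import Vale.Agent.P236C.C.Q1_1_9

noncomputable section

namespace Vale.Agent.P236C.D

theorem qp1_0 : DD.QP hDD 1 (nat_lit 0) (nat_lit 8) :=
  qp_K hDD 1 (ds1 := ds2) (xs := xs1) rfl rfl rfl rfl pk3_0 uok2_0
    ((JOk.of_chk cq1_0_0).append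
    ((JOk.of_chk cq1_0_1).append
    ((JOk.of_chk cq1_0_2).append
    ((JOk.of_chk cq1_0_3).append
    ((JOk.of_chk cq1_0_4).append
    ((JOk.of_chk cq1_0_5).append
    ((JOk.of_chk cq1_0_6).append
    ((JOk.of_chk cq1_0_7).append
    ((JOk.of_chk cq1_0_8).append
    (JOk.of_chk cq1_0_9))))))))))
    (by decide +kernel)

theorem qp1_1 : DD.QP hDD 1 (nat_lit 8) (nat_lit 31) :=
  qp_K hDD 1 (ds1 := ds2) (xs := xs1) rfl rfl rfl rfl pk3_1 uok2_1
    ((JOk.of_chk cq1_1_0).append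
    ((JOk.of_chk cq1_1_1).append
    ((JOk.of_chk cq1_1_2).append
    ((JOk.of_chk cq1_1_3).append
    ((JOk.of_chk cq1_1_4).append
    ((JOk.of_chk cq1_1_5).append
    ((JOk.of_chk cq1_1_6).append
    ((JOk.of_chk cq1_1_7).append
    ((JOk.of_chk cq1_1_8).append
    (JOk.of_chk cq1_1_9))))))))))
    (by decide +kernel)

theorem q1 : (mkRes DD hDD).Q 6 1 180 :=
  (qp1_0.trans qp1_1).q (by decide +kernel)

end Vale.Agent.P236C.D

end
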