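import Vale.Agent.P236C.G.U11_0
import Vale.Agent.P236C.C.Q10_0_0
import Vale.Agent.P236C.C.Q10_0_1
import Vale.Agent.P236C.C.Q10_0_2
import Vale.Agent.P236C.C.Q10_0_3
import Vale.Agent.P236C.C.Q10_0_4
import Vale.Agent.P236C.C.Q10_0_5
import Vale.Agent.P236C.C.Q10_0_6
import Vale.Agent.P236C.C.Q10_0_7
import Vale.Agent.P236C.C.Q10_0_8
import Vale.Agent.P236C.C.Q10_0_9
import Vale.Agent.P236C.C.Q10_0_10
import Vale.Agent.P236C.G.U11_1
import Vale.Agent.P236C.C.Q10_1_0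
import Vale.Agent.P236C.C.Q10_1_1
import Vale.Agent.P236C.C.Q10_1_2
import Vale.Agent.P236C.C.Q10_1_3
import Vale.Agent.P236C.C.Q10_1_4
import Vale.Agent.P236C.C.Q10_1_5
import Vale.Agent.P236C.C.Q10_1_6
import Vale.Agent.P236C.C.Q10_1_7
import Vale.Agent.P236C.C.Q10_1_8
import Vale.Agent.P236C.C.Q10_1_9
import Vale.Agent.P236C.C.Q10_1_10

noncomputable section

namespace Vale.Agent.P236C.D

theorem qp10_0 : DD.QP hDD 10 (nat_lit 0) (nat_lit 8) :=
  qp_K hDD 10 (ds1 := ds11) (xs := xs10) rfl rfl rfl rfl pk12_0 uok11_0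
    ((JOk.of_chk cq10_0_0).append
    ((JOk.of_chk cq10_0_1).append
    ((JOk.of_chk cq10_0_2).append
    ((JOk.of_chk cq10_0_3).append
    ((JOk.of_chk cq10_0_4).append
    ((JOk.of_chk cq10_0_5).append
    ((JOk.of_chk cq10_0_6).append
    ((JOk.of_chk cq10_0_7).append
    ((JOk.of_chk cq10_0_8).append
    ((JOk.of_chk cq10_0_9).append
    (JOk.of_chk cq10_0_10)))))))))))
    (by decide +kernel)

theorem qp10_1 : DD.QP hDD 10 (nat_lit 8) (nat_lit 40) :=
  qp_K hDD 10 (ds1 := ds11) (xs := xs10) rfl rfl rfl rfl pk12_1 uok11_1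
    ((JOk.of_chk cq10_1_0).append
    ((JOk.of_chk cq10_1_1).append
    ((JOk.of_chk cq10_1_2).append
    ((JOk.of_chk cq10_1_3).append
    ((JOk.of_chk cq10_1_4).append
    ((JOk.of_chk cq10_1_5).append
    ((JOk.of_chk cq10_1_6).append
    ((JOk.of_chk cq10_1_7).append
    ((JOk.of_chk cq10_1_8).append
    ((JOk.of_chk cq10_1_9).append
    (JOk.of_chk cq10_1_10)))))))))))
    (by decide +kernel)

theorem q10 : (mkRes DD hDD).Q 6 10 180 :=
  (qp10_0.trans qp10_1).q (by decide +kernel)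

end Vale.Agent.P236C.D

end
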