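import Vale.Agent.P236C.G.U12_0
import Vale.Agent.P236C.C.Q11_0_0
import Vale.Agent.P236C.C.Q11_0_1
import Vale.Agent.P236C.C.Q11_0_2
import Vale.Agent.P236C.C.Q11_0_3
import Vale.Agent.P236C.C.Q11_0_4
import Vale.Agent.P236C.C.Q11_0_5
import Vale.Agent.P236C.C.Q11_0_6
import Vale.Agent.P236C.C.Q11_0_7
import Vale.Agent.P236C.C.Q11_0_8
import Vale.Agent.P236C.G.U12_1
import Vale.Agent.P236C.C.Q11_1_0
import Vale.Agent.P236C.C.Q11_1_1
import Vale.Agent.P236C.C.Q11_1_2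
import Vale.Agent.P236C.C.Q11_1_3
import Vale.Agent.P236C.C.Q11_1_4
import Vale.Agent.P236C.C.Q11_1_5
import Vale.Agent.P236C.C.Q11_1_6
import Vale.Agent.P236C.C.Q11_1_7
import Vale.Agent.P236C.C.Q11_1_8
import Vale.Agent.P236C.C.Q11_1_9

noncomputable section

namespace Vale.Agent.P236C.D

theorem qp11_0 : DD.QP hDD 11 (nat_lit 0) (nat_lit 7) :=
  qp_K hDD 11 (ds1 := ds12) (xs := xs11) rfl rfl rfl rfl pk13_0 uok12_0
    ((JOk.of_chk cq11_0_0).append
    ((JOk.of_chk cq11_0_1).append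
    ((JOk.of_chk cq11_0_2).append
    ((JOk.of_chk cq11_0_3).append
    ((JOk.of_chk cq11_0_4).append
    ((JOk.of_chk cq11_0_5).append
    ((JOk.of_chk cq11_0_6).append
    ((JOk.of_chk cq11_0_7).append
    (JOk.of_chk cq11_0_8)))))))))
    (by decide +kernel)

theorem qp11_1 : DD.QP hDD 11 (nat_lit 7) (nat_lit 34) :=
  qp_K hDD 11 (ds1 := ds12) (xs := xs11) rfl rfl rfl rfl pk13_1 uok12_1
    ((JOk.of_chk cq11_1_0).append
    ((JOk.of_chk cq11_1_1).append
    ((JOk.of_chk cq11_1_2).append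
    ((JOk.of_chk cq11_1_3).append
    ((JOk.of_chk cq11_1_4).append
    ((JOk.of_chk cq11_1_5).append
    ((JOk.of_chk cq11_1_6).append
    ((JOk.of_chk cq11_1_7).append
    ((JOk.of_chk cq11_1_8).append
    (JOk.of_chk cq11_1_9))))))))))
    (by decide +kernel)

theorem q11 : (mkRes DD hDD).Q 6 11 180 :=
  (qp11_0.trans qp11_1).q (by decide +kernel)

end Vale.Agent.P236C.D

end
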