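import Vale.Agent.P236C.G.U13_0
import Vale.Agent.P236C.C.Q12_0_0
import Vale.Agent.P236C.C.Q12_0_1
import Vale.Agent.P236C.C.Q12_0_2
import Vale.Agent.P236C.C.Q12_0_3
import Vale.Agent.P236C.C.Q12_0_4
import Vale.Agent.P236C.C.Q12_0_5
import Vale.Agent.P236C.C.Q12_0_6
import Vale.Agent.P236C.C.Q12_0_7
import Vale.Agent.P236C.G.U13_1
import Vale.Agent.P236C.C.Q12_1_0
import Vale.Agent.P236C.C.Q12_1_1
import Vale.Agent.P236C.C.Q12_1_2
import Vale.Agent.P236C.C.Q12_1_3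
import Vale.Agent.P236C.C.Q12_1_4
import Vale.Agent.P236C.C.Q12_1_5
import Vale.Agent.P236C.C.Q12_1_6
import Vale.Agent.P236C.C.Q12_1_7

noncomputable section

namespace Vale.Agent.P236C.D

theorem qp12_0 : DD.QP hDD 12 (nat_lit 0) (nat_lit 7) :=
  qp_K hDD 12 (ds1 := ds13) (xs := xs12) rfl rfl rfl rfl pk14_0 uok13_0
    ((JOk.of_chk cq12_0_0).append
    ((JOk.of_chk cq12_0_1).append
    ((JOk.of_chk cq12_0_2).append
    ((JOk.of_chk cq12_0_3).append
    ((JOk.of_chk cq12_0_4).append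
    ((JOk.of_chk cq12_0_5).append
    ((JOk.of_chk cq12_0_6).append
    (JOk.of_chk cq12_0_7))))))))
    (by decide +kernel)

theorem qp12_1 : DD.QP hDD 12 (nat_lit 7) (nat_lit 32) :=
  qp_K hDD 12 (ds1 := ds13) (xs := xs12) rfl rfl rfl rfl pk14_1 uok13_1
    ((JOk.of_chk cq12_1_0).append
    ((JOk.of_chk cq12_1_1).append
    ((JOk.of_chk cq12_1_2).append
    ((JOk.of_chk cq12_1_3).append
    ((JOk.of_chk cq12_1_4).append
    ((JOk.of_chk cq12_1_5).append
    ((JOk.of_chk cq12_1_6).append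
    (JOk.of_chk cq12_1_7))))))))
    (by decide +kernel)

theorem q12 : (mkRes DD hDD).Q 6 12 180 :=
  (qp12_0.trans qp12_1).q (by decide +kernel)

end Vale.Agent.P236C.D

end
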