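import Vale.Agent.P236C.G.U14_0
import Vale.Agent.P236C.C.Q13_0_0
import Vale.Agent.P236C.C.Q13_0_1
import Vale.Agent.P236C.C.Q13_0_2
import Vale.Agent.P236C.C.Q13_0_3
import Vale.Agent.P236C.C.Q13_0_4
import Vale.Agent.P236C.C.Q13_0_5
import Vale.Agent.P236C.C.Q13_0_6
import Vale.Agent.P236C.G.U14_1
import Vale.Agent.P236C.C.Q13_1_0
import Vale.Agent.P236C.C.Q13_1_1
import Vale.Agent.P236C.C.Q13_1_2
import Vale.Agent.P236C.C.Q13_1_3
import Vale.Agent.P236C.C.Q13_1_4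
import Vale.Agent.P236C.C.Q13_1_5
import Vale.Agent.P236C.C.Q13_1_6

noncomputable section

namespace Vale.Agent.P236C.D

theorem qp13_0 : DD.QP hDD 13 (nat_lit 0) (nat_lit 7) :=
  qp_K hDD 13 (ds1 := ds14) (xs := xs13) rfl rfl rfl rfl pk15_0 uok14_0
    ((JOk.of_chk cq13_0_0).append
    ((JOk.of_chk cq13_0_1).append
    ((JOk.of_chk cq13_0_2).append
    ((JOk.of_chk cq13_0_3).append
    ((JOk.of_chk cq13_0_4).append
    ((JOk.of_chk cq13_0_5).append
    (JOk.of_chk cq13_0_6)))))))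
    (by decide +kernel)

theorem qp13_1 : DD.QP hDD 13 (nat_lit 7) (nat_lit 29) :=
  qp_K hDD 13 (ds1 := ds14) (xs := xs13) rfl rfl rfl rfl pk15_1 uok14_1
    ((JOk.of_chk cq13_1_0).append
    ((JOk.of_chk cq13_1_1).append
    ((JOk.of_chk cq13_1_2).append
    ((JOk.of_chk cq13_1_3).append
    ((JOk.of_chk cq13_1_4).append
    ((JOk.of_chk cq13_1_5).append
    (JOk.of_chk cq13_1_6)))))))
    (by decide +kernel)

theorem q13 : (mkRes DD hDD).Q 6 13 180 :=
  (qp13_0.trans qp13_1).q (by decide +kernel)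

end Vale.Agent.P236C.D

end
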