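import Vale.Agent.P236C.G.U16_0
import Vale.Agent.P236C.C.Q15_0_0
import Vale.Agent.P236C.C.Q15_0_1
import Vale.Agent.P236C.C.Q15_0_2
import Vale.Agent.P236C.C.Q15_0_3
import Vale.Agent.P236C.C.Q15_0_4
import Vale.Agent.P236C.C.Q15_0_5

noncomputable section

namespace Vale.Agent.P236C.D

theorem qp15_0 : DD.QP hDD 15 (nat_lit 0) (nat_lit 24) :=
  qp_K hDD 15 (ds1 := ds16) (xs := xs15) rfl rfl rfl rfl pk17_0 uok16_0
    ((JOk.of_chk cq15_0_0).append
    ((JOk.of_chk cq15_0_1).append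
    ((JOk.of_chk cq15_0_2).append
    ((JOk.of_chk cq15_0_3).append
    ((JOk.of_chk cq15_0_4).append
    (JOk.of_chk cq15_0_5))))))
    (by decide +kernel)

theorem q15 : (mkRes DD hDD).Q 6 15 180 :=
  qp15_0.q (by decide +kernel)

end Vale.Agent.P236C.D

end
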