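import Vale.Agent.P236C.G.U18_0
import Vale.Agent.P236C.C.Q17_0_0
import Vale.Agent.P236C.C.Q17_0_1
import Vale.Agent.P236C.C.Q17_0_2
import Vale.Agent.P236C.C.Q17_0_3

noncomputable section

namespace Vale.Agent.P236C.D

theorem qp17_0 : DD.QP hDD 17 (nat_lit 0) (nat_lit 24) :=
  qp_K hDD 17 (ds1 := ds18) (xs := xs17) rfl rfl rfl rfl pk19_0 uok18_0
    ((JOk.of_chk cq17_0_0).append
    ((JOk.of_chk cq17_0_1).append
    ((JOk.of_chk cq17_0_2).append
    (JOk.of_chk cq17_0_3))))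
    (by decide +kernel)

theorem q17 : (mkRes DD hDD).Q 6 17 180 :=
  qp17_0.q (by decide +kernel)

end Vale.Agent.P236C.D

end
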