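import Vale.Agent.P236C.G.U20_0
import Vale.Agent.P236C.C.Q19_0_0
import Vale.Agent.P236C.C.Q19_0_1
import Vale.Agent.P236C.C.Q19_0_2

noncomputable section

namespace Vale.Agent.P236C.D

theorem qp19_0 : DD.QP hDD 19 (nat_lit 0) (nat_lit 24) :=
  qp_K hDD 19 (ds1 := ds20) (xs := xs19) rfl rfl rfl rfl pk21_0 uok20_0
    ((JOk.of_chk cq19_0_0).append
    ((JOk.of_chk cq19_0_1).append
    (JOk.of_chk cq19_0_2)))
    (by decide +kernel)

theorem q19 : (mkRes DD hDD).Q 6 19 180 :=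
  qp19_0.q (by decide +kernel)

end Vale.Agent.P236C.D

end
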