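import Vale.Agent.P236C.G.U3_0
import Vale.Agent.P236C.C.Q2_0_0
import Vale.Agent.P236C.C.Q2_0_1
import Vale.Agent.P236C.C.Q2_0_2
import Vale.Agent.P236C.C.Q2_0_3
import Vale.Agent.P236C.C.Q2_0_4
import Vale.Agent.P236C.C.Q2_0_5
import Vale.Agent.P236C.C.Q2_0_6
import Vale.Agent.P236C.C.Q2_0_7
import Vale.Agent.P236C.C.Q2_0_8
import Vale.Agent.P236C.C.Q2_0_9
import Vale.Agent.P236C.C.Q2_0_10
import Vale.Agent.P236C.C.Q2_0_11
import Vale.Agent.P236C.C.Q2_0_12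
import Vale.Agent.P236C.C.Q2_0_13
import Vale.Agent.P236C.C.Q2_0_14
import Vale.Agent.P236C.C.Q2_0_15
import Vale.Agent.P236C.C.Q2_0_16
import Vale.Agent.P236C.C.Q2_0_17
import Vale.Agent.P236C.C.Q2_0_18
import Vale.Agent.P236C.C.Q2_0_19
import Vale.Agent.P236C.C.Q2_0_20
import Vale.Agent.P236C.C.Q2_0_21
import Vale.Agent.P236C.C.Q2_0_22
import Vale.Agent.P236C.C.Q2_0_23
import Vale.Agent.P236C.C.Q2_0_24
import Vale.Agent.P236C.C.Q2_0_25
import Vale.Agent.P236C.C.Q2_0_26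
import Vale.Agent.P236C.C.Q2_0_27
import Vale.Agent.P236C.C.Q2_0_28
import Vale.Agent.P236C.C.Q2_0_29
import Vale.Agent.P236C.C.Q2_0_30
import Vale.Agent.P236C.C.Q2_0_31
import Vale.Agent.P236C.G.U3_1
import Vale.Agent.P236C.C.Q2_1_0
import Vale.Agent.P236C.C.Q2_1_1
import Vale.Agent.P236C.C.Q2_1_2
import Vale.Agent.P236C.C.Q2_1_3
import Vale.Agent.P236C.C.Q2_1_4
import Vale.Agent.P236C.C.Q2_1_5
import Vale.Agent.P236C.C.Q2_1_6
import Vale.Agent.P236C.C.Q2_1_7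
import Vale.Agent.P236C.C.Q2_1_8
import Vale.Agent.P236C.C.Q2_1_9
import Vale.Agent.P236C.C.Q2_1_10
import Vale.Agent.P236C.C.Q2_1_11
import Vale.Agent.P236C.C.Q2_1_12
import Vale.Agent.P236C.C.Q2_1_13
import Vale.Agent.P236C.C.Q2_1_14
import Vale.Agent.P236C.C.Q2_1_15
import Vale.Agent.P236C.C.Q2_1_16
import Vale.Agent.P236C.C.Q2_1_17
import Vale.Agent.P236C.C.Q2_1_18
import Vale.Agent.P236C.C.Q2_1_19
import Vale.Agent.P236C.C.Q2_1_20
import Vale.Agent.P236C.C.Q2_1_21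
import Vale.Agent.P236C.C.Q2_1_22
import Vale.Agent.P236C.C.Q2_1_23
import Vale.Agent.P236C.C.Q2_1_24
import Vale.Agent.P236C.C.Q2_1_25
import Vale.Agent.P236C.C.Q2_1_26
import Vale.Agent.P236C.C.Q2_1_27
import Vale.Agent.P236C.C.Q2_1_28

noncomputable section

namespace Vale.Agent.P236C.D

theorem qp2_0 : DD.QP hDD 2 (nat_lit 0) (nat_lit 10) :=
  qp_K hDD 2 (ds1 := ds3) (xs := xs2) rfl rfl rfl rfl pk4_0 uok3_0
    ((JOk.of_chk cq2_0_0).append
    ((JOk.of_chk cq2_0_1).append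
    ((JOk.of_chk cq2_0_2).append
    ((JOk.of_chk cq2_0_3).append
    ((JOk.of_chk cq2_0_4).append
    ((JOk.of_chk cq2_0_5).append
    ((JOk.of_chk cq2_0_6).append
    ((JOk.of_chk cq2_0_7).append
    ((JOk.of_chk cq2_0_8).append
    ((JOk.of_chk cq2_0_9).append
    ((JOk.of_chk cq2_0_10).append
    ((JOk.of_chk cq2_0_11).append
    ((JOk.of_chk cq2_0_12).append
    ((JOk.of_chk cq2_0_13).append
    ((JOk.of_chk cq2_0_14).append
    ((JOk.of_chk cq2_0_15).append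
    ((JOk.of_chk cq2_0_16).append
    ((JOk.of_chk cq2_0_17).append
    ((JOk.of_chk cq2_0_18).append
    ((JOk.of_chk cq2_0_19).append
    ((JOk.of_chk cq2_0_20).append
    ((JOk.of_chk cq2_0_21).append
    ((JOk.of_chk cq2_0_22).append
    ((JOk.of_chk cq2_0_23).append
    ((JOk.of_chk cq2_0_24).append
    ((JOk.of_chk cq2_0_25).append
    ((JOk.of_chk cq2_0_26).append
    ((JOk.of_chk cq2_0_27).append
    ((JOk.of_chk cq2_0_28).append
    ((JOk.of_chk cq2_0_29).append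
    ((JOk.of_chk cq2_0_30).append
    (JOk.of_chk cq2_0_31))))))))))))))))))))))))))))))))
    (by decide +kernel)

theorem qp2_1 : DD.QP hDD 2 (nat_lit 10) (nat_lit 41) :=
  qp_K hDD 2 (ds1 := ds3) (xs := xs2) rfl rfl rfl rfl pk4_1 uok3_1
    ((JOk.of_chk cq2_1_0).append
    ((JOk.of_chk cq2_1_1).append
    ((JOk.of_chk cq2_1_2).append
    ((JOk.of_chk cq2_1_3).append
    ((JOk.of_chk cq2_1_4).append
    ((JOk.of_chk cq2_1_5).append
    ((JOk.of_chk cq2_1_6).append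
    ((JOk.of_chk cq2_1_7).append
    ((JOk.of_chk cq2_1_8).append
    ((JOk.of_chk cq2_1_9).append
    ((JOk.of_chk cq2_1_10).append
    ((JOk.of_chk cq2_1_11).append
    ((JOk.of_chk cq2_1_12).append
    ((JOk.of_chk cq2_1_13).append
    ((JOk.of_chk cq2_1_14).append
    ((JOk.of_chk cq2_1_15).append
    ((JOk.of_chk cq2_1_16).append
    ((JOk.of_chk cq2_1_17).append
    ((JOk.of_chk cq2_1_18).append
    ((JOk.of_chk cq2_1_19).append
    ((JOk.of_chk cq2_1_20).append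
    ((JOk.of_chk cq2_1_21).append
    ((JOk.of_chk cq2_1_22).append
    ((JOk.of_chk cq2_1_23).append
    ((JOk.of_chk cq2_1_24).append
    ((JOk.of_chk cq2_1_25).append
    ((JOk.of_chk cq2_1_26).append
    ((JOk.of_chk cq2_1_27).append
    (JOk.of_chk cq2_1_28)))))))))))))))))))))))))))))
    (by decide +kernel)

theorem q2 : (mkRes DD hDD).Q 6 2 180 :=
  (qp2_0.trans qp2_1).q (by decide +kernel)

end Vale.Agent.P236C.D

end
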