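import Vale.Agent.P236C.G.U23_0
import Vale.Agent.P236C.C.Q22_0_0
import Vale.Agent.P236C.C.Q22_0_1

noncomputable section

namespace Vale.Agent.P236C.D

theorem qp22_0 : DD.QP hDD 22 (nat_lit 0) (nat_lit 23) :=
  qp_K hDD 22 (ds1 := ds23) (xs := xs22) rfl rfl rfl rfl pk24_0 uok23_0
    ((JOk.of_chk cq22_0_0).append
    (JOk.of_chk cq22_0_1))
    (by decide +kernel)

theorem q22 : (mkRes DD hDD).Q 6 22 180 :=
  qp22_0.q (by decide +kernel)

end Vale.Agent.P236C.D

end
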