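import Vale.Agent.P236C.G.U25_0
import Vale.Agent.P236C.C.Q24_0_0
import Vale.Agent.P236C.C.Q24_0_1

noncomputable section

namespace Vale.Agent.P236C.D

theorem qp24_0 : DD.QP hDD 24 (nat_lit 0) (nat_lit 21) :=
  qp_K hDD 24 (ds1 := ds25) (xs := xs24) rfl rfl rfl rfl pk26_0 uok25_0
    ((JOk.of_chk cq24_0_0).append
    (JOk.of_chk cq24_0_1))
    (by decide +kernel)

theorem q24 : (mkRes DD hDD).Q 6 24 180 :=
  qp24_0.q (by decide +kernel)

end Vale.Agent.P236C.D

end
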