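import Vale.Agent.P236C.G.U26_0
import Vale.Agent.P236C.C.Q25_0_0
import Vale.Agent.P236C.C.Q25_0_1

noncomputable section

namespace Vale.Agent.P236C.D

theorem qp25_0 : DD.QP hDD 25 (nat_lit 0) (nat_lit 21) :=
  qp_K hDD 25 (ds1 := ds26) (xs := xs25) rfl rfl rfl rfl pk27_0 uok26_0
    ((JOk.of_chk cq25_0_0).append
    (JOk.of_chk cq25_0_1))
    (by decide +kernel)

theorem q25 : (mkRes DD hDD).Q 6 25 180 :=
  qp25_0.q (by decide +kernel)

end Vale.Agent.P236C.D

end
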