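import Vale.Agent.P236C.G.U27_0
import Vale.Agent.P236C.C.Q26_0_0

noncomputable section

namespace Vale.Agent.P236C.D

theorem qp26_0 : DD.QP hDD 26 (nat_lit 0) (nat_lit 20) :=
  qp_K hDD 26 (ds1 := ds27) (xs := xs26) rfl rfl rfl rfl pk28_0 uok27_0
    (JOk.of_chk cq26_0_0)
    (by decide +kernel)

theorem q26 : (mkRes DD hDD).Q 6 26 180 :=
  qp26_0.q (by decide +kernel)

end Vale.Agent.P236C.D

end
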