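import Vale.Agent.P236C.G.U28_0
import Vale.Agent.P236C.C.Q27_0_0

noncomputable section

namespace Vale.Agent.P236C.D

theorem qp27_0 : DD.QP hDD 27 (nat_lit 0) (nat_lit 19) :=
  qp_K hDD 27 (ds1 := ds28) (xs := xs27) rfl rfl rfl rfl pk29_0 uok28_0
    (JOk.of_chk cq27_0_0)
    (by decide +kernel)

theorem q27 : (mkRes DD hDD).Q 6 27 180 :=
  qp27_0.q (by decide +kernel)

end Vale.Agent.P236C.D

end
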