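import Vale.Agent.P236C.G.U29_0
import Vale.Agent.P236C.C.Q28_0_0

noncomputable section

namespace Vale.Agent.P236C.D

theorem qp28_0 : DD.QP hDD 28 (nat_lit 0) (nat_lit 18) :=
  qp_K hDD 28 (ds1 := ds29) (xs := xs28) rfl rfl rfl rfl pk30_0 uok29_0
    (JOk.of_chk cq28_0_0)
    (by decide +kernel)

theorem q28 : (mkRes DD hDD).Q 6 28 180 :=
  qp28_0.q (by decide +kernel)

end Vale.Agent.P236C.D

end
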