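import Vale.Agent.P236C.G.U30_0
import Vale.Agent.P236C.C.Q29_0_0

noncomputable section

namespace Vale.Agent.P236C.D

theorem qp29_0 : DD.QP hDD 29 (nat_lit 0) (nat_lit 17) :=
  qp_K hDD 29 (ds1 := ds30) (xs := xs29) rfl rfl rfl rfl pk31_0 uok30_0
    (JOk.of_chk cq29_0_0)
    (by decide +kernel)

theorem q29 : (mkRes DD hDD).Q 6 29 180 :=
  qp29_0.q (by decide +kernel)

end Vale.Agent.P236C.D

end
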