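import Vale.Agent.P236C.G.U4_0
import Vale.Agent.P236C.C.Q3_0_0
import Vale.Agent.P236C.C.Q3_0_1
import Vale.Agent.P236C.C.Q3_0_2
import Vale.Agent.P236C.C.Q3_0_3
import Vale.Agent.P236C.C.Q3_0_4
import Vale.Agent.P236C.C.Q3_0_5
import Vale.Agent.P236C.C.Q3_0_6
import Vale.Agent.P236C.C.Q3_0_7
import Vale.Agent.P236C.C.Q3_0_8
import Vale.Agent.P236C.C.Q3_0_9
import Vale.Agent.P236C.C.Q3_0_10
import Vale.Agent.P236C.C.Q3_0_11
import Vale.Agent.P236C.C.Q3_0_12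
import Vale.Agent.P236C.C.Q3_0_13
import Vale.Agent.P236C.C.Q3_0_14
import Vale.Agent.P236C.C.Q3_0_15
import Vale.Agent.P236C.C.Q3_0_16
import Vale.Agent.P236C.C.Q3_0_17
import Vale.Agent.P236C.C.Q3_0_18
import Vale.Agent.P236C.C.Q3_0_19
import Vale.Agent.P236C.C.Q3_0_20
import Vale.Agent.P236C.C.Q3_0_21
import Vale.Agent.P236C.C.Q3_0_22
import Vale.Agent.P236C.C.Q3_0_23
import Vale.Agent.P236C.C.Q3_0_24
import Vale.Agent.P236C.C.Q3_0_25
import Vale.Agent.P236C.C.Q3_0_26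
import Vale.Agent.P236C.C.Q3_0_27
import Vale.Agent.P236C.C.Q3_0_28
import Vale.Agent.P236C.C.Q3_0_29
import Vale.Agent.P236C.C.Q3_0_30
import Vale.Agent.P236C.C.Q3_0_31
import Vale.Agent.P236C.C.Q3_0_32
import Vale.Agent.P236C.C.Q3_0_33
import Vale.Agent.P236C.C.Q3_0_34
import Vale.Agent.P236C.C.Q3_0_35
import Vale.Agent.P236C.C.Q3_0_36
import Vale.Agent.P236C.C.Q3_0_37
import Vale.Agent.P236C.C.Q3_0_38
import Vale.Agent.P236C.C.Q3_0_39
import Vale.Agent.P236C.C.Q3_0_40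
import Vale.Agent.P236C.C.Q3_0_41
import Vale.Agent.P236C.C.Q3_0_42
import Vale.Agent.P236C.C.Q3_0_43
import Vale.Agent.P236C.C.Q3_0_44
import Vale.Agent.P236C.C.Q3_0_45
import Vale.Agent.P236C.C.Q3_0_46
import Vale.Agent.P236C.C.Q3_0_47
import Vale.Agent.P236C.C.Q3_0_48
import Vale.Agent.P236C.C.Q3_0_49
import Vale.Agent.P236C.C.Q3_0_50
import Vale.Agent.P236C.C.Q3_0_51
import Vale.Agent.P236C.C.Q3_0_52
import Vale.Agent.P236C.C.Q3_0_53
import Vale.Agent.P236C.G.U4_1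
import Vale.Agent.P236C.C.Q3_1_0
import Vale.Agent.P236C.C.Q3_1_1
import Vale.Agent.P236C.C.Q3_1_2
import Vale.Agent.P236C.C.Q3_1_3
import Vale.Agent.P236C.C.Q3_1_4
import Vale.Agent.P236C.C.Q3_1_5
import Vale.Agent.P236C.C.Q3_1_6
import Vale.Agent.P236C.C.Q3_1_7
import Vale.Agent.P236C.C.Q3_1_8
import Vale.Agent.P236C.C.Q3_1_9
import Vale.Agent.P236C.C.Q3_1_10
import Vale.Agent.P236C.C.Q3_1_11
import Vale.Agent.P236C.C.Q3_1_12
import Vale.Agent.P236C.C.Q3_1_13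
import Vale.Agent.P236C.C.Q3_1_14
import Vale.Agent.P236C.C.Q3_1_15
import Vale.Agent.P236C.C.Q3_1_16
import Vale.Agent.P236C.C.Q3_1_17
import Vale.Agent.P236C.C.Q3_1_18
import Vale.Agent.P236C.C.Q3_1_19
import Vale.Agent.P236C.C.Q3_1_20
import Vale.Agent.P236C.C.Q3_1_21
import Vale.Agent.P236C.C.Q3_1_22
import Vale.Agent.P236C.C.Q3_1_23
import Vale.Agent.P236C.C.Q3_1_24
import Vale.Agent.P236C.C.Q3_1_25
import Vale.Agent.P236C.C.Q3_1_26
import Vale.Agent.P236C.C.Q3_1_27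
import Vale.Agent.P236C.C.Q3_1_28
import Vale.Agent.P236C.C.Q3_1_29
import Vale.Agent.P236C.C.Q3_1_30
import Vale.Agent.P236C.C.Q3_1_31
import Vale.Agent.P236C.C.Q3_1_32
import Vale.Agent.P236C.C.Q3_1_33
import Vale.Agent.P236C.C.Q3_1_34
import Vale.Agent.P236C.C.Q3_1_35
import Vale.Agent.P236C.C.Q3_1_36
import Vale.Agent.P236C.C.Q3_1_37
import Vale.Agent.P236C.C.Q3_1_38
import Vale.Agent.P236C.C.Q3_1_39
import Vale.Agent.P236C.C.Q3_1_40
import Vale.Agent.P236C.C.Q3_1_41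
import Vale.Agent.P236C.C.Q3_1_42
import Vale.Agent.P236C.C.Q3_1_43
import Vale.Agent.P236C.C.Q3_1_44
import Vale.Agent.P236C.C.Q3_1_45
import Vale.Agent.P236C.C.Q3_1_46
import Vale.Agent.P236C.C.Q3_1_47
import Vale.Agent.P236C.C.Q3_1_48
import Vale.Agent.P236C.C.Q3_1_49
import Vale.Agent.P236C.C.Q3_1_50
import Vale.Agent.P236C.C.Q3_1_51
import Vale.Agent.P236C.C.Q3_1_52
import Vale.Agent.P236C.C.Q3_1_53

noncomputable section

namespace Vale.Agent.P236C.D

theorem qp3_0 : DD.QP hDD 3 (nat_lit 0) (nat_lit 10) :=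
  qp_K hDD 3 (ds1 := ds4) (xs := xs3) rfl rfl rfl rfl pk5_0 uok4_0
    ((JOk.of_chk cq3_0_0).append
    ((JOk.of_chk cq3_0_1).append
    ((JOk.of_chk cq3_0_2).append
    ((JOk.of_chk cq3_0_3).append
    ((JOk.of_chk cq3_0_4).append
    ((JOk.of_chk cq3_0_5).append
    ((JOk.of_chk cq3_0_6).append
    ((JOk.of_chk cq3_0_7).append
    ((JOk.of_chk cq3_0_8).append
    ((JOk.of_chk cq3_0_9).append
    ((JOk.of_chk cq3_0_10).append
    ((JOk.of_chk cq3_0_11).append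
    ((JOk.of_chk cq3_0_12).append
    ((JOk.of_chk cq3_0_13).append
    ((JOk.of_chk cq3_0_14).append
    ((JOk.of_chk cq3_0_15).append
    ((JOk.of_chk cq3_0_16).append
    ((JOk.of_chk cq3_0_17).append
    ((JOk.of_chk cq3_0_18).append
    ((JOk.of_chk cq3_0_19).append
    ((JOk.of_chk cq3_0_20).append
    ((JOk.of_chk cq3_0_21).append
    ((JOk.of_chk cq3_0_22).append
    ((JOk.of_chk cq3_0_23).append
    ((JOk.of_chk cq3_0_24).append
    ((JOk.of_chk cq3_0_25).append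
    ((JOk.of_chk cq3_0_26).append
    ((JOk.of_chk cq3_0_27).append
    ((JOk.of_chk cq3_0_28).append
    ((JOk.of_chk cq3_0_29).append
    ((JOk.of_chk cq3_0_30).append
    ((JOk.of_chk cq3_0_31).append
    ((JOk.of_chk cq3_0_32).append
    ((JOk.of_chk cq3_0_33).append
    ((JOk.of_chk cq3_0_34).append
    ((JOk.of_chk cq3_0_35).append
    ((JOk.of_chk cq3_0_36).append
    ((JOk.of_chk cq3_0_37).append
    ((JOk.of_chk cq3_0_38).append
    ((JOk.of_chk cq3_0_39).append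
    ((JOk.of_chk cq3_0_40).append
    ((JOk.of_chk cq3_0_41).append
    ((JOk.of_chk cq3_0_42).append
    ((JOk.of_chk cq3_0_43).append
    ((JOk.of_chk cq3_0_44).append
    ((JOk.of_chk cq3_0_45).append
    ((JOk.of_chk cq3_0_46).append
    ((JOk.of_chk cq3_0_47).append
    ((JOk.of_chk cq3_0_48).append
    ((JOk.of_chk cq3_0_49).append
    ((JOk.of_chk cq3_0_50).append
    ((JOk.of_chk cq3_0_51).append
    ((JOk.of_chk cq3_0_52).append
    (JOk.of_chk cq3_0_53))))))))))))))))))))))))))))))))))))))))))))))))))))))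
    (by decide +kernel)

theorem qp3_1 : DD.QP hDD 3 (nat_lit 10) (nat_lit 45) :=
  qp_K hDD 3 (ds1 := ds4) (xs := xs3) rfl rfl rfl rfl pk5_1 uok4_1
    ((JOk.of_chk cq3_1_0).append
    ((JOk.of_chk cq3_1_1).append
    ((JOk.of_chk cq3_1_2).append
    ((JOk.of_chk cq3_1_3).append
    ((JOk.of_chk cq3_1_4).append
    ((JOk.of_chk cq3_1_5).append
    ((JOk.of_chk cq3_1_6).append
    ((JOk.of_chk cq3_1_7).append
    ((JOk.of_chk cq3_1_8).append
    ((JOk.of_chk cq3_1_9).append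
    ((JOk.of_chk cq3_1_10).append
    ((JOk.of_chk cq3_1_11).append
    ((JOk.of_chk cq3_1_12).append
    ((JOk.of_chk cq3_1_13).append
    ((JOk.of_chk cq3_1_14).append
    ((JOk.of_chk cq3_1_15).append
    ((JOk.of_chk cq3_1_16).append
    ((JOk.of_chk cq3_1_17).append
    ((JOk.of_chk cq3_1_18).append
    ((JOk.of_chk cq3_1_19).append
    ((JOk.of_chk cq3_1_20).append
    ((JOk.of_chk cq3_1_21).append
    ((JOk.of_chk cq3_1_22).append
    ((JOk.of_chk cq3_1_23).append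
    ((JOk.of_chk cq3_1_24).append
    ((JOk.of_chk cq3_1_25).append
    ((JOk.of_chk cq3_1_26).append
    ((JOk.of_chk cq3_1_27).append
    ((JOk.of_chk cq3_1_28).append
    ((JOk.of_chk cq3_1_29).append
    ((JOk.of_chk cq3_1_30).append
    ((JOk.of_chk cq3_1_31).append
    ((JOk.of_chk cq3_1_32).append
    ((JOk.of_chk cq3_1_33).append
    ((JOk.of_chk cq3_1_34).append
    ((JOk.of_chk cq3_1_35).append
    ((JOk.of_chk cq3_1_36).append
    ((JOk.of_chk cq3_1_37).append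
    ((JOk.of_chk cq3_1_38).append
    ((JOk.of_chk cq3_1_39).append
    ((JOk.of_chk cq3_1_40).append
    ((JOk.of_chk cq3_1_41).append
    ((JOk.of_chk cq3_1_42).append
    ((JOk.of_chk cq3_1_43).append
    ((JOk.of_chk cq3_1_44).append
    ((JOk.of_chk cq3_1_45).append
    ((JOk.of_chk cq3_1_46).append
    ((JOk.of_chk cq3_1_47).append
    ((JOk.of_chk cq3_1_48).append
    ((JOk.of_chk cq3_1_49).append
    ((JOk.of_chk cq3_1_50).append
    ((JOk.of_chk cq3_1_51).append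
    ((JOk.of_chk cq3_1_52).append
    (JOk.of_chk cq3_1_53))))))))))))))))))))))))))))))))))))))))))))))))))))))
    (by decide +kernel)

theorem q3 : (mkRes DD hDD).Q 6 3 180 :=
  (qp3_0.trans qp3_1).q (by decide +kernel)

end Vale.Agent.P236C.D

end
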