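import Vale.Agent.P236C.G.U31_0
import Vale.Agent.P236C.C.Q30_0_0

noncomputable section

namespace Vale.Agent.P236C.D

theorem qp30_0 : DD.QP hDD 30 (nat_lit 0) (nat_lit 15) :=
  qp_K hDD 30 (ds1 := ds31) (xs := xs30) rfl rfl rfl rfl pk32_0 uok31_0
    (JOk.of_chk cq30_0_0)
    (by decide +kernel)

theorem q30 : (mkRes DD hDD).Q 6 30 180 :=
  qp30_0.q (by decide +kernel)

end Vale.Agent.P236C.D

end
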