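import Vale.Agent.P236C.G.U32_0
import Vale.Agent.P236C.C.Q31_0_0

noncomputable section

namespace Vale.Agent.P236C.D

theorem qp31_0 : DD.QP hDD 31 (nat_lit 0) (nat_lit 14) :=
  qp_K hDD 31 (ds1 := ds32) (xs := xs31) rfl rfl rfl rfl pk33_0 uok32_0
    (JOk.of_chk cq31_0_0)
    (by decide +kernel)

theorem q31 : (mkRes DD hDD).Q 6 31 180 :=
  qp31_0.q (by decide +kernel)

end Vale.Agent.P236C.D

end
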