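import Vale.Agent.P236C.G.U7_0
import Vale.Agent.P236C.C.Q6_0_0
import Vale.Agent.P236C.C.Q6_0_1
import Vale.Agent.P236C.C.Q6_0_2
import Vale.Agent.P236C.C.Q6_0_3
import Vale.Agent.P236C.C.Q6_0_4
import Vale.Agent.P236C.C.Q6_0_5
import Vale.Agent.P236C.C.Q6_0_6
import Vale.Agent.P236C.C.Q6_0_7
import Vale.Agent.P236C.C.Q6_0_8
import Vale.Agent.P236C.C.Q6_0_9
import Vale.Agent.P236C.C.Q6_0_10
import Vale.Agent.P236C.C.Q6_0_11
import Vale.Agent.P236C.C.Q6_0_12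
import Vale.Agent.P236C.C.Q6_0_13
import Vale.Agent.P236C.C.Q6_0_14
import Vale.Agent.P236C.C.Q6_0_15
import Vale.Agent.P236C.C.Q6_0_16
import Vale.Agent.P236C.C.Q6_0_17
import Vale.Agent.P236C.C.Q6_0_18
import Vale.Agent.P236C.C.Q6_0_19
import Vale.Agent.P236C.C.Q6_0_20
import Vale.Agent.P236C.C.Q6_0_21
import Vale.Agent.P236C.G.U7_1
import Vale.Agent.P236C.C.Q6_1_0
import Vale.Agent.P236C.C.Q6_1_1
import Vale.Agent.P236C.C.Q6_1_2
import Vale.Agent.P236C.C.Q6_1_3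
import Vale.Agent.P236C.C.Q6_1_4
import Vale.Agent.P236C.C.Q6_1_5
import Vale.Agent.P236C.C.Q6_1_6
import Vale.Agent.P236C.C.Q6_1_7
import Vale.Agent.P236C.C.Q6_1_8
import Vale.Agent.P236C.C.Q6_1_9
import Vale.Agent.P236C.C.Q6_1_10
import Vale.Agent.P236C.C.Q6_1_11
import Vale.Agent.P236C.C.Q6_1_12
import Vale.Agent.P236C.C.Q6_1_13
import Vale.Agent.P236C.C.Q6_1_14
import Vale.Agent.P236C.C.Q6_1_15
import Vale.Agent.P236C.C.Q6_1_16
import Vale.Agent.P236C.C.Q6_1_17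
import Vale.Agent.P236C.C.Q6_1_18
import Vale.Agent.P236C.C.Q6_1_19
import Vale.Agent.P236C.C.Q6_1_20
import Vale.Agent.P236C.C.Q6_1_21

noncomputable section

namespace Vale.Agent.P236C.D

theorem qp6_0 : DD.QP hDD 6 (nat_lit 0) (nat_lit 8) :=
  qp_K hDD 6 (ds1 := ds7) (xs := xs6) rfl rfl rfl rfl pk8_0 uok7_0
    ((JOk.of_chk cq6_0_0).append
    ((JOk.of_chk cq6_0_1).append
    ((JOk.of_chk cq6_0_2).append
    ((JOk.of_chk cq6_0_3).append
    ((JOk.of_chk cq6_0_4).append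
    ((JOk.of_chk cq6_0_5).append
    ((JOk.of_chk cq6_0_6).append
    ((JOk.of_chk cq6_0_7).append
    ((JOk.of_chk cq6_0_8).append
    ((JOk.of_chk cq6_0_9).append
    ((JOk.of_chk cq6_0_10).append
    ((JOk.of_chk cq6_0_11).append
    ((JOk.of_chk cq6_0_12).append
    ((JOk.of_chk cq6_0_13).append
    ((JOk.of_chk cq6_0_14).append
    ((JOk.of_chk cq6_0_15).append
    ((JOk.of_chk cq6_0_16).append
    ((JOk.of_chk cq6_0_17).append
    ((JOk.of_chk cq6_0_18).append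
    ((JOk.of_chk cq6_0_19).append
    ((JOk.of_chk cq6_0_20).append
    (JOk.of_chk cq6_0_21))))))))))))))))))))))
    (by decide +kernel)

theorem qp6_1 : DD.QP hDD 6 (nat_lit 8) (nat_lit 40) :=
  qp_K hDD 6 (ds1 := ds7) (xs := xs6) rfl rfl rfl rfl pk8_1 uok7_1
    ((JOk.of_chk cq6_1_0).append
    ((JOk.of_chk cq6_1_1).append
    ((JOk.of_chk cq6_1_2).append
    ((JOk.of_chk cq6_1_3).append
    ((JOk.of_chk cq6_1_4).append
    ((JOk.of_chk cq6_1_5).append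
    ((JOk.of_chk cq6_1_6).append
    ((JOk.of_chk cq6_1_7).append
    ((JOk.of_chk cq6_1_8).append
    ((JOk.of_chk cq6_1_9).append
    ((JOk.of_chk cq6_1_10).append
    ((JOk.of_chk cq6_1_11).append
    ((JOk.of_chk cq6_1_12).append
    ((JOk.of_chk cq6_1_13).append
    ((JOk.of_chk cq6_1_14).append
    ((JOk.of_chk cq6_1_15).append
    ((JOk.of_chk cq6_1_16).append
    ((JOk.of_chk cq6_1_17).append
    ((JOk.of_chk cq6_1_18).append
    ((JOk.of_chk cq6_1_19).append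
    ((JOk.of_chk cq6_1_20).append
    (JOk.of_chk cq6_1_21))))))))))))))))))))))
    (by decide +kernel)

theorem q6 : (mkRes DD hDD).Q 6 6 180 :=
  (qp6_0.trans qp6_1).q (by decide +kernel)

end Vale.Agent.P236C.D

end
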