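import Vale.Agent.P236C.G.U8_0
import Vale.Agent.P236C.C.Q7_0_0
import Vale.Agent.P236C.C.Q7_0_1
import Vale.Agent.P236C.C.Q7_0_2
import Vale.Agent.P236C.C.Q7_0_3
import Vale.Agent.P236C.C.Q7_0_4
import Vale.Agent.P236C.C.Q7_0_5
import Vale.Agent.P236C.C.Q7_0_6
import Vale.Agent.P236C.C.Q7_0_7
import Vale.Agent.P236C.C.Q7_0_8
import Vale.Agent.P236C.C.Q7_0_9
import Vale.Agent.P236C.C.Q7_0_10
import Vale.Agent.P236C.C.Q7_0_11
import Vale.Agent.P236C.C.Q7_0_12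
import Vale.Agent.P236C.C.Q7_0_13
import Vale.Agent.P236C.C.Q7_0_14
import Vale.Agent.P236C.C.Q7_0_15
import Vale.Agent.P236C.C.Q7_0_16
import Vale.Agent.P236C.G.U8_1
import Vale.Agent.P236C.C.Q7_1_0
import Vale.Agent.P236C.C.Q7_1_1
import Vale.Agent.P236C.C.Q7_1_2
import Vale.Agent.P236C.C.Q7_1_3
import Vale.Agent.P236C.C.Q7_1_4
import Vale.Agent.P236C.C.Q7_1_5
import Vale.Agent.P236C.C.Q7_1_6
import Vale.Agent.P236C.C.Q7_1_7
import Vale.Agent.P236C.C.Q7_1_8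
import Vale.Agent.P236C.C.Q7_1_9
import Vale.Agent.P236C.C.Q7_1_10
import Vale.Agent.P236C.C.Q7_1_11
import Vale.Agent.P236C.C.Q7_1_12
import Vale.Agent.P236C.C.Q7_1_13
import Vale.Agent.P236C.C.Q7_1_14
import Vale.Agent.P236C.C.Q7_1_15
import Vale.Agent.P236C.C.Q7_1_16

noncomputable section

namespace Vale.Agent.P236C.D

theorem qp7_0 : DD.QP hDD 7 (nat_lit 0) (nat_lit 9) :=
  qp_K hDD 7 (ds1 := ds8) (xs := xs7) rfl rfl rfl rfl pk9_0 uok8_0
    ((JOk.of_chk cq7_0_0).append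
    ((JOk.of_chk cq7_0_1).append
    ((JOk.of_chk cq7_0_2).append
    ((JOk.of_chk cq7_0_3).append
    ((JOk.of_chk cq7_0_4).append
    ((JOk.of_chk cq7_0_5).append
    ((JOk.of_chk cq7_0_6).append
    ((JOk.of_chk cq7_0_7).append
    ((JOk.of_chk cq7_0_8).append
    ((JOk.of_chk cq7_0_9).append
    ((JOk.of_chk cq7_0_10).append
    ((JOk.of_chk cq7_0_11).append
    ((JOk.of_chk cq7_0_12).append
    ((JOk.of_chk cq7_0_13).append
    ((JOk.of_chk cq7_0_14).append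
    ((JOk.of_chk cq7_0_15).append
    (JOk.of_chk cq7_0_16)))))))))))))))))
    (by decide +kernel)

theorem qp7_1 : DD.QP hDD 7 (nat_lit 9) (nat_lit 43) :=
  qp_K hDD 7 (ds1 := ds8) (xs := xs7) rfl rfl rfl rfl pk9_1 uok8_1
    ((JOk.of_chk cq7_1_0).append
    ((JOk.of_chk cq7_1_1).append
    ((JOk.of_chk cq7_1_2).append
    ((JOk.of_chk cq7_1_3).append
    ((JOk.of_chk cq7_1_4).append
    ((JOk.of_chk cq7_1_5).append
    ((JOk.of_chk cq7_1_6).append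
    ((JOk.of_chk cq7_1_7).append
    ((JOk.of_chk cq7_1_8).append
    ((JOk.of_chk cq7_1_9).append
    ((JOk.of_chk cq7_1_10).append
    ((JOk.of_chk cq7_1_11).append
    ((JOk.of_chk cq7_1_12).append
    ((JOk.of_chk cq7_1_13).append
    ((JOk.of_chk cq7_1_14).append
    ((JOk.of_chk cq7_1_15).append
    (JOk.of_chk cq7_1_16)))))))))))))))))
    (by decide +kernel)

theorem q7 : (mkRes DD hDD).Q 6 7 180 :=
  (qp7_0.trans qp7_1).q (by decide +kernel)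

end Vale.Agent.P236C.D

end
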