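import Vale.Agent.P236C.G.U9_0
import Vale.Agent.P236C.C.Q8_0_0
import Vale.Agent.P236C.C.Q8_0_1
import Vale.Agent.P236C.C.Q8_0_2
import Vale.Agent.P236C.C.Q8_0_3
import Vale.Agent.P236C.C.Q8_0_4
import Vale.Agent.P236C.C.Q8_0_5
import Vale.Agent.P236C.C.Q8_0_6
import Vale.Agent.P236C.C.Q8_0_7
import Vale.Agent.P236C.C.Q8_0_8
import Vale.Agent.P236C.C.Q8_0_9
import Vale.Agent.P236C.C.Q8_0_10
import Vale.Agent.P236C.C.Q8_0_11
import Vale.Agent.P236C.C.Q8_0_12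
import Vale.Agent.P236C.C.Q8_0_13
import Vale.Agent.P236C.G.U9_1
import Vale.Agent.P236C.C.Q8_1_0
import Vale.Agent.P236C.C.Q8_1_1
import Vale.Agent.P236C.C.Q8_1_2
import Vale.Agent.P236C.C.Q8_1_3
import Vale.Agent.P236C.C.Q8_1_4
import Vale.Agent.P236C.C.Q8_1_5
import Vale.Agent.P236C.C.Q8_1_6
import Vale.Agent.P236C.C.Q8_1_7
import Vale.Agent.P236C.C.Q8_1_8
import Vale.Agent.P236C.C.Q8_1_9
import Vale.Agent.P236C.C.Q8_1_10
import Vale.Agent.P236C.C.Q8_1_11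
import Vale.Agent.P236C.C.Q8_1_12
import Vale.Agent.P236C.C.Q8_1_13

noncomputable section

namespace Vale.Agent.P236C.D

theorem qp8_0 : DD.QP hDD 8 (nat_lit 0) (nat_lit 9) :=
  qp_K hDD 8 (ds1 := ds9) (xs := xs8) rfl rfl rfl rfl pk10_0 uok9_0
    ((JOk.of_chk cq8_0_0).append
    ((JOk.of_chk cq8_0_1).append
    ((JOk.of_chk cq8_0_2).append
    ((JOk.of_chk cq8_0_3).append
    ((JOk.of_chk cq8_0_4).append
    ((JOk.of_chk cq8_0_5).append
    ((JOk.of_chk cq8_0_6).append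
    ((JOk.of_chk cq8_0_7).append
    ((JOk.of_chk cq8_0_8).append
    ((JOk.of_chk cq8_0_9).append
    ((JOk.of_chk cq8_0_10).append
    ((JOk.of_chk cq8_0_11).append
    ((JOk.of_chk cq8_0_12).append
    (JOk.of_chk cq8_0_13))))))))))))))
    (by decide +kernel)

theorem qp8_1 : DD.QP hDD 8 (nat_lit 9) (nat_lit 44) :=
  qp_K hDD 8 (ds1 := ds9) (xs := xs8) rfl rfl rfl rfl pk10_1 uok9_1
    ((JOk.of_chk cq8_1_0).append
    ((JOk.of_chk cq8_1_1).append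
    ((JOk.of_chk cq8_1_2).append
    ((JOk.of_chk cq8_1_3).append
    ((JOk.of_chk cq8_1_4).append
    ((JOk.of_chk cq8_1_5).append
    ((JOk.of_chk cq8_1_6).append
    ((JOk.of_chk cq8_1_7).append
    ((JOk.of_chk cq8_1_8).append
    ((JOk.of_chk cq8_1_9).append
    ((JOk.of_chk cq8_1_10).append
    ((JOk.of_chk cq8_1_11).append
    ((JOk.of_chk cq8_1_12).append
    (JOk.of_chk cq8_1_13))))))))))))))
    (by decide +kernel)

theorem q8 : (mkRes DD hDD).Q 6 8 180 :=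
  (qp8_0.trans qp8_1).q (by decide +kernel)

end Vale.Agent.P236C.D

end
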