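import Vale.Agent.P236C.G.U10_0
import Vale.Agent.P236C.C.Q9_0_0
import Vale.Agent.P236C.C.Q9_0_1
import Vale.Agent.P236C.C.Q9_0_2
import Vale.Agent.P236C.C.Q9_0_3
import Vale.Agent.P236C.C.Q9_0_4
import Vale.Agent.P236C.C.Q9_0_5
import Vale.Agent.P236C.C.Q9_0_6
import Vale.Agent.P236C.C.Q9_0_7
import Vale.Agent.P236C.C.Q9_0_8
import Vale.Agent.P236C.C.Q9_0_9
import Vale.Agent.P236C.C.Q9_0_10
import Vale.Agent.P236C.C.Q9_0_11
import Vale.Agent.P236C.C.Q9_0_12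
import Vale.Agent.P236C.C.Q9_0_13
import Vale.Agent.P236C.G.U10_1
import Vale.Agent.P236C.C.Q9_1_0
import Vale.Agent.P236C.C.Q9_1_1
import Vale.Agent.P236C.C.Q9_1_2
import Vale.Agent.P236C.C.Q9_1_3
import Vale.Agent.P236C.C.Q9_1_4
import Vale.Agent.P236C.C.Q9_1_5
import Vale.Agent.P236C.C.Q9_1_6
import Vale.Agent.P236C.C.Q9_1_7
import Vale.Agent.P236C.C.Q9_1_8
import Vale.Agent.P236C.C.Q9_1_9
import Vale.Agent.P236C.C.Q9_1_10
import Vale.Agent.P236C.C.Q9_1_11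
import Vale.Agent.P236C.C.Q9_1_12

noncomputable section

namespace Vale.Agent.P236C.D

theorem qp9_0 : DD.QP hDD 9 (nat_lit 0) (nat_lit 9) :=
  qp_K hDD 9 (ds1 := ds10) (xs := xs9) rfl rfl rfl rfl pk11_0 uok10_0
    ((JOk.of_chk cq9_0_0).append
    ((JOk.of_chk cq9_0_1).append
    ((JOk.of_chk cq9_0_2).append
    ((JOk.of_chk cq9_0_3).append
    ((JOk.of_chk cq9_0_4).append
    ((JOk.of_chk cq9_0_5).append
    ((JOk.of_chk cq9_0_6).append
    ((JOk.of_chk cq9_0_7).append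
    ((JOk.of_chk cq9_0_8).append
    ((JOk.of_chk cq9_0_9).append
    ((JOk.of_chk cq9_0_10).append
    ((JOk.of_chk cq9_0_11).append
    ((JOk.of_chk cq9_0_12).append
    (JOk.of_chk cq9_0_13))))))))))))))
    (by decide +kernel)

theorem qp9_1 : DD.QP hDD 9 (nat_lit 9) (nat_lit 44) :=
  qp_K hDD 9 (ds1 := ds10) (xs := xs9) rfl rfl rfl rfl pk11_1 uok10_1
    ((JOk.of_chk cq9_1_0).append
    ((JOk.of_chk cq9_1_1).append
    ((JOk.of_chk cq9_1_2).append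
    ((JOk.of_chk cq9_1_3).append
    ((JOk.of_chk cq9_1_4).append
    ((JOk.of_chk cq9_1_5).append
    ((JOk.of_chk cq9_1_6).append
    ((JOk.of_chk cq9_1_7).append
    ((JOk.of_chk cq9_1_8).append
    ((JOk.of_chk cq9_1_9).append
    ((JOk.of_chk cq9_1_10).append
    ((JOk.of_chk cq9_1_11).append
    (JOk.of_chk cq9_1_12)))))))))))))
    (by decide +kernel)

theorem q9 : (mkRes DD hDD).Q 6 9 180 :=
  (qp9_0.trans qp9_1).q (by decide +kernel)

end Vale.Agent.P236C.D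

end
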