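import Vale.Agent.P236C.G.Q0
import Vale.Agent.P236C.G.Q1
import Vale.Agent.P236C.G.Q2
import Vale.Agent.P236C.G.Q3
import Vale.Agent.P236C.G.Q4
import Vale.Agent.P236C.G.Q5
import Vale.Agent.P236C.G.Q6
import Vale.Agent.P236C.G.Q7
import Vale.Agent.P236C.G.Q8
import Vale.Agent.P236C.G.Q9
import Vale.Agent.P236C.G.Q10
import Vale.Agent.P236C.G.Q11
import Vale.Agent.P236C.G.Q12
import Vale.Agent.P236C.G.Q13
import Vale.Agent.P236C.G.Q14
import Vale.Agent.P236C.G.Q15
import Vale.Agent.P236C.G.Q16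
import Vale.Agent.P236C.G.Q17
import Vale.Agent.P236C.G.Q18
import Vale.Agent.P236C.G.Q19
import Vale.Agent.P236C.G.Q20
import Vale.Agent.P236C.G.Q21
import Vale.Agent.P236C.G.Q22
import Vale.Agent.P236C.G.Q23
import Vale.Agent.P236C.G.Q24
import Vale.Agent.P236C.G.Q25
import Vale.Agent.P236C.G.Q26
import Vale.Agent.P236C.G.Q27
import Vale.Agent.P236C.G.Q28
import Vale.Agent.P236C.G.Q29
import Vale.Agent.P236C.G.Q30
import Vale.Agent.P236C.G.Q31
import Vale.Agent.P236C.G.Q32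

noncomputable section

namespace Vale.Agent.P236C.D

theorem hQ : ∀ j ≤ 33, (mkRes DD hDD).Q 6 j 180 := by
  intro j hj
  interval_cases j
  exacts [q0, q1, q2, q3, q4, q5, q6, q7, q8, q9, q10, q11, q12, q13, q14, q15, q16, q17, q18, q19, q20, q21, q22, q23, q24, q25, q26, q27, q28, q29, q30, q31, q32, q33]

end Vale.Agent.P236C.D

end
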