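import Vale.Agent.P236C.G.U1_0
import Vale.Agent.P236C.C.Q0_0_0
import Vale.Agent.P236C.C.Q0_0_1
import Vale.Agent.P236C.G.U1_1
import Vale.Agent.P236C.C.Q0_1_0
import Vale.Agent.P236C.C.Q0_1_1

noncomputable section

namespace Vale.Agent.P236C.D

theorem qp0_0 : DD.QP hDD 0 (nat_lit 0) (nat_lit 4) :=
  qp_K hDD 0 (ds1 := ds1) (xs := xs0) rfl rfl rfl rfl pk2_0 uok1_0
    ((JOk.of_chk cq0_0_0).append
    (JOk.of_chk cq0_0_1))
    (by decide +kernel)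

theorem qp0_1 : DD.QP hDD 0 (nat_lit 4) (nat_lit 16) :=
  qp_K hDD 0 (ds1 := ds1) (xs := xs0) rfl rfl rfl rfl pk2_1 uok1_1
    ((JOk.of_chk cq0_1_0).append
    (JOk.of_chk cq0_1_1))
    (by decide +kernel)

theorem q0 : (mkRes DD hDD).Q 6 0 180 :=
  (qp0_0.trans qp0_1).q (by decide +kernel)

end Vale.Agent.P236C.D

end
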