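import Vale.Agent.P236C.G.U17_0
import Vale.Agent.P236C.C.Q16_0_0
import Vale.Agent.P236C.C.Q16_0_1
import Vale.Agent.P236C.C.Q16_0_2
import Vale.Agent.P236C.C.Q16_0_3
import Vale.Agent.P236C.C.Q16_0_4

noncomputable section

namespace Vale.Agent.P236C.D

theorem qp16_0 : DD.QP hDD 16 (nat_lit 0) (nat_lit 24) :=
  qp_K hDD 16 (ds1 := ds17) (xs := xs16) rfl rfl rfl rfl pk18_0 uok17_0
    ((JOk.of_chk cq16_0_0).append
    ((JOk.of_chk cq16_0_1).append
    ((JOk.of_chk cq16_0_2).append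
    ((JOk.of_chk cq16_0_3).append
    (JOk.of_chk cq16_0_4)))))
    (by decide +kernel)

theorem q16 : (mkRes DD hDD).Q 6 16 180 :=
  qp16_0.q (by decide +kernel)

end Vale.Agent.P236C.D

end
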