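import Vale.Agent.P236C.G.U33_0
import Vale.Agent.P236C.C.Q32_0_0

noncomputable section

namespace Vale.Agent.P236C.D

theorem qp32_0 : DD.QP hDD 32 (nat_lit 0) (nat_lit 14) :=
  qp_K hDD 32 (ds1 := ds33) (xs := xs32) rfl rfl rfl rfl pk34_0 uok33_0
    (JOk.of_chk cq32_0_0)
    (by decide +kernel)

theorem q32 : (mkRes DD hDD).Q 6 32 180 :=
  qp32_0.q (by decide +kernel)

end Vale.Agent.P236C.D

end
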