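import Vale.Agent.P236C.DOk
import Vale.Agent.P236C.C.U0_0_0

noncomputable section

namespace Vale.Agent.P236C.D

theorem uok0_0 : UOK DD (ldK k1_0 q1_0 b1_0 ds1 (nat_lit 0) (nat_lit 2)) 0 u0_0 :=
  uok_K hDD 0 (ds0 := ds0) (xs := xs0) rfl rfl rfl rfl pk1_0 wu0_0
    (UC.of_chk cu0_0_0)
    (by decide +kernel)

end Vale.Agent.P236C.D

end
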