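import Vale.Agent.P236C.DOk
import Vale.Agent.P236C.C.U0_1_0

noncomputable section

namespace Vale.Agent.P236C.D

theorem uok0_1 : UOK DD (ldK k1_1 q1_1 b1_1 ds1 (nat_lit 2) (nat_lit 5)) 0 u0_1 :=
  uok_K hDD 0 (ds0 := ds0) (xs := xs0) rfl rfl rfl rfl pk1_1 wu0_1
    (UC.of_chk cu0_1_0)
    (by decide +kernel)

end Vale.Agent.P236C.D

end
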