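import Vale.Agent.P236C.DOk
import Vale.Agent.P236C.C.U16_0_0
import Vale.Agent.P236C.C.U16_0_1

noncomputable section

namespace Vale.Agent.P236C.D

theorem uok16_0 : UOK DD (ldK k17_0 q17_0 b17_0 ds17 (nat_lit 0) (nat_lit 24)) 16 u16_0 :=
  uok_K hDD 16 (ds0 := ds16) (xs := xs16) rfl rfl rfl rfl pk17_0 wu16_0
    ((UC.of_chk cu16_0_0).append
    (UC.of_chk cu16_0_1))
    (by decide +kernel)

end Vale.Agent.P236C.D

end
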