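import Vale.Agent.P236C.DOk
import Vale.Agent.P236C.C.U33_0_0

noncomputable section

namespace Vale.Agent.P236C.D

theorem uok33_0 : UOK DD (ldK k34_0 q34_0 b34_0 ds34 (nat_lit 0) (nat_lit 14)) 33 u33_0 :=
  uok_K hDD 33 (ds0 := ds33) (xs := xs33) rfl rfl rfl rfl pk34_0 wu33_0
    (UC.of_chk cu33_0_0)
    (by decide +kernel)

end Vale.Agent.P236C.D

end
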