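import Vale.Agent.P236C.Ev
import Vale.Agent.P236C.D.P
import Vale.Agent.P236C.V.V0_0_0
import Vale.Agent.P236C.G.U0_0
import Vale.Agent.P236C.V.V0_1_0
import Vale.Agent.P236C.G.U0_1

noncomputable section

namespace Vale.Agent.P236C.D

theorem cp0_0 : ∀ c ∈ P236N.Dt.D.allC 0, DD.CP hDD 0 (nat_lit 0) (nat_lit 2) c :=
  cp_K hDD 0 (ds0 := ds0) rfl rfl rfl pk1_0 uok0_0
    (cv0_0_0)

theorem cp0_1 : ∀ c ∈ P236N.Dt.D.allC 0, DD.CP hDD 0 (nat_lit 2) (nat_lit 5) c :=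
  cp_K hDD 0 (ds0 := ds0) rfl rfl rfl pk1_1 uok0_1
    (cv0_1_0)

theorem clm0 : ∀ c ∈ P236N.Dt.D.allC 0, c.Ok (mkRes DD hDD) genF dsA 0 := fun c hc =>
  ((cp0_0 c hc).trans (cp0_1 c hc)).ok (by decide +kernel)

end Vale.Agent.P236C.D

end
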