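import Vale.Agent.P236C.Ev
import Vale.Agent.P236C.D.P
import Vale.Agent.P236C.V.V16_0_0
import Vale.Agent.P236C.V.V16_0_1
import Vale.Agent.P236C.V.V16_0_2
import Vale.Agent.P236C.G.U16_0

noncomputable section

namespace Vale.Agent.P236C.D

theorem cp16_0 : ∀ c ∈ P236N.Dt.D.allC 16, DD.CP hDD 16 (nat_lit 0) (nat_lit 24) c :=
  cp_K hDD 16 (ds0 := ds16) rfl rfl rfl pk17_0 uok16_0
    (evK_cut _ cv16_0_0
    (evK_cut _ cv16_0_1
    (cv16_0_2)))

theorem clm16 : ∀ c ∈ P236N.Dt.D.allC 16, c.Ok (mkRes DD hDD) genF dsA 16 := fun c hc =>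
  (cp16_0 c hc).ok (by decide +kernel)

end Vale.Agent.P236C.D

end
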